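import Mathlib

/-!
# P088: linear systems depending holomorphically on a parameter
-/

open MeasureTheory Set Filter
open scoped Topology

namespace Vale.Agent.P088

noncomputable section

variable {E : Type*} [NormedAddCommGroup E] [NormedSpace ℂ E] [CompleteSpace E]

/-- Coefficients of a linear system, continuous, and holomorphic in the parameter. -/
structure Sys (E : Type*) [NormedAddCommGroup E] [NormedSpace ℂ E] where
  op : ℂ → ℝ → (E →L[ℂ] E)
  cont : Continuous fun z : ℂ × ℝ => op z.1 z.2
  diff : ∀ t, Differentiable ℂ fun s => op s t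

/-- Picard's successive terms, written on the unit interval. -/
def picard (A : Sys E) (y₀ : ℂ → E) : ℕ → ℂ → ℝ → E
  | 0 => fun s _ => y₀ s
  | n + 1 => fun s t => t • ∫ u in (0:ℝ)..1, A.op s (t * u) (picard A y₀ n s (t * u))

theorem continuous_picard (A : Sys E) {y₀ : ℂ → E} (hy : Continuous y₀) :
    ∀ n, Continuous fun z : ℂ × ℝ => picard A y₀ n z.1 z.2
  | 0 => hy.comp continuous_fst
  | n + 1 => by
    have h := continuous_picard A hy n
    refine continuous_snd.smul (intervalIntegral.continuous_parametric_intervalIntegral_of_continuous'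
      (μ := volume) ?_ 0 1)
    have hm : Continuous fun p : (ℂ × ℝ) × ℝ => (p.1.1, p.1.2 * p.2) := by fun_prop
    exact (A.cont.comp hm).clm_apply (h.comp hm)

/-- An integral of a continuous function, holomorphic in a parameter, is holomorphic. -/
theorem differentiable_integral {F : ℂ → ℝ → E} (hc : Continuous fun z : ℂ × ℝ => F z.1 z.2)
    (hd : ∀ u, Differentiable ℂ fun s => F s u) (a b : ℝ) :
    Differentiable ℂ fun s => ∫ u in a..b, F s u := by
  intro s₀
  obtain ⟨M, hM⟩ := ((isCompact_closedBall s₀ 2).prod (isCompact_uIcc (a := a) (b := b))).exists_bound_of_continuousOn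
    hc.continuousOn
  have hsl : ∀ u, Tendsto (fun n : ℕ => slope (fun s => F s u) s₀ (s₀ + (1 / ((n : ℂ) + 1))))
      atTop (𝓝 (deriv (fun s => F s u) s₀)) := fun u => by
    refine (hasDerivAt_iff_tendsto_slope.1 (hd u s₀).hasDerivAt).comp
      (tendsto_nhdsWithin_iff.2 ⟨?_, Eventually.of_forall fun n => ?_⟩)
    · simpa using tendsto_one_div_add_atTop_nhds_zero_nat.const_add s₀
    · simpa using Nat.cast_add_one_ne_zero (R := ℂ) n
  refine (intervalIntegral.hasDerivAt_integral_of_dominated_loc_of_deriv_le (μ := volume)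
    (F' := fun s u => deriv (fun z => F z u) s) (bound := fun _ => M) (Metric.ball_mem_nhds s₀ one_pos)
    (Eventually.of_forall fun s => (hc.comp (by fun_prop : Continuous fun u : ℝ => (s, u))).aestronglyMeasurable)
    ((hc.comp (by fun_prop : Continuous fun u : ℝ => (s₀, u))).intervalIntegrable a b) ?_
    (Eventually.of_forall fun u hu s hs => ?_) intervalIntegrable_const
    (Eventually.of_forall fun u _ s _ => (hd u s).hasDerivAt)).2.differentiableAt
  · refine aestronglyMeasurable_of_tendsto_ae atTop (fun n => ?_) (Eventually.of_forall hsl)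
    simp only [slope_def_module]
    exact ((hc.comp (by fun_prop : Continuous fun u : ℝ => (s₀ + 1 / ((n : ℂ) + 1), u))).sub
      (hc.comp (by fun_prop : Continuous fun u : ℝ => (s₀, u)))).const_smul _ |>.aestronglyMeasurable
  · have := Complex.norm_deriv_le_of_forall_mem_sphere_norm_le one_pos ((hd u).diffContOnCl)
      (fun z hz => hM (z, u) ⟨?_, uIoc_subset_uIcc hu⟩) (c := s)
    · simpa using this
    · rw [Metric.mem_closedBall]
      have h1 := dist_triangle z s s₀
      rw [Metric.mem_ball] at hs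
      rw [Metric.mem_sphere] at hz
      linarith

theorem differentiable_picard (A : Sys E) {y₀ : ℂ → E} (hy : Differentiable ℂ y₀) :
    ∀ n t, Differentiable ℂ fun s => picard A y₀ n s t
  | 0, _ => hy
  | n + 1, t => by
    have h := continuous_picard A hy.continuous n
    have hm : Continuous fun p : ℂ × ℝ => (p.1, t * p.2) := by fun_prop
    exact (differentiable_integral (F := fun s u => A.op s (t * u) (picard A y₀ n s (t * u)))
      ((A.cont.comp hm).clm_apply (h.comp hm))
      (fun u => (A.diff _).clm_apply (differentiable_picard A hy n (t * u))) 0 1).fun_const_smul t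

theorem norm_picard_le (A : Sys E) {y₀ : ℂ → E} (hy : Continuous y₀) {s : ℂ} {T K : ℝ} (hK : 0 ≤ K)
    (hA : ∀ t, |t| ≤ T → ‖A.op s t‖ ≤ K) :
    ∀ n t, |t| ≤ T → ‖picard A y₀ n s t‖ ≤ ‖y₀ s‖ * ((K * |t|) ^ n / n.factorial)
  | 0, t, _ => by simp [picard]
  | n + 1, t, ht => by
    have hc : Continuous fun u : ℝ => A.op s (t * u) (picard A y₀ n s (t * u)) := by
      have hm : Continuous fun u : ℝ => ((s, t * u) : ℂ × ℝ) := by fun_prop
      exact (A.cont.comp hm).clm_apply ((continuous_picard A hy n).comp hm)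
    have hb : ∀ u ∈ Icc (0:ℝ) 1, ‖A.op s (t * u) (picard A y₀ n s (t * u))‖ ≤
        (‖y₀ s‖ * K * ((K * |t|) ^ n / n.factorial)) * u ^ n := by
      intro u hu
      have hu' : |t * u| = |t| * u := by rw [abs_mul, abs_of_nonneg hu.1]
      have hle : |t * u| ≤ T := by
        rw [hu']; exact (mul_le_of_le_one_right (abs_nonneg t) hu.2).trans ht
      refine ((A.op s _).le_opNorm _).trans ((mul_le_mul (hA _ hle) (norm_picard_le A hy hK hA n _ hle)
        (norm_nonneg _) hK).trans (le_of_eq ?_))
      rw [hu', mul_pow, mul_pow, mul_pow]; ring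
    have h := intervalIntegral.integral_mono_on (μ := volume) zero_le_one (hc.norm.intervalIntegrable 0 1)
      ((Continuous.intervalIntegrable (by fun_prop) 0 1)) hb
    rw [intervalIntegral.integral_const_mul, integral_pow] at h
    simp only [picard, norm_smul, Real.norm_eq_abs]
    refine (mul_le_mul_of_nonneg_left
      ((intervalIntegral.norm_integral_le_integral_norm zero_le_one).trans h) (abs_nonneg t)).trans
      (le_of_eq ?_)
    rw [Nat.factorial_succ]
    have : (n.factorial : ℝ) ≠ 0 := by exact_mod_cast n.factorial_ne_zero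
    push_cast
    field_simp
    ring

/-- The solution of the system with given value at the origin. -/
def flow (A : Sys E) (y₀ : ℂ → E) (s : ℂ) (t : ℝ) : E := ∑' n, picard A y₀ n s t

theorem exists_op_bound (A : Sys E) (r T : ℝ) :
    ∃ K, 0 ≤ K ∧ ∀ s : ℂ, ‖s‖ ≤ r → ∀ t, |t| ≤ T → ‖A.op s t‖ ≤ K := by
  obtain ⟨K, hK⟩ := ((isCompact_closedBall (0:ℂ) r).prod (isCompact_Icc (a := -T) (b := T))).exists_bound_of_continuousOn
    A.cont.continuousOn
  exact ⟨max K 0, le_max_right _ _, fun s hs t ht => (hK (s, t) ⟨by simpa using hs, abs_le.1 ht⟩).trans (le_max_left _ _)⟩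

theorem norm_flow_le (A : Sys E) {y₀ : ℂ → E} (hy : Continuous y₀) {s : ℂ} {T K : ℝ} (hK : 0 ≤ K)
    (hA : ∀ t, |t| ≤ T → ‖A.op s t‖ ≤ K) {t : ℝ} (ht : |t| ≤ T) :
    ‖flow A y₀ s t‖ ≤ ‖y₀ s‖ * Real.exp (K * |t|) := by
  have h := (Real.summable_pow_div_factorial (K * |t|)).mul_left ‖y₀ s‖
  refine (tsum_of_norm_bounded h.hasSum fun n => norm_picard_le A hy hK hA n t ht).trans (le_of_eq ?_)
  rw [tsum_mul_left, Real.exp_eq_exp_ℝ, NormedSpace.exp_eq_tsum_div]

theorem flow_zero (A : Sys E) (y₀ : ℂ → E) (s : ℂ) : flow A y₀ s 0 = y₀ s := by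
  rw [flow, tsum_eq_single 0]
  · rfl
  · intro n hn
    obtain ⟨k, rfl⟩ := Nat.exists_eq_succ_of_ne_zero hn
    simp [picard]

theorem hasDerivAt_flow (A : Sys E) {y₀ : ℂ → E} (hy : Continuous y₀) (s : ℂ) (t : ℝ) :
    HasDerivAt (flow A y₀ s) (A.op s t (flow A y₀ s t)) t := by
  obtain ⟨K, hK, hA⟩ := exists_op_bound A ‖s‖ (|t| + 1)
  set T := |t| + 1 with hT
  have hA' := hA s le_rfl
  set g' : ℕ → ℝ → E := fun n r => Nat.casesOn (motive := fun _ => E) n 0
    (fun k => A.op s r (picard A y₀ k s r)) with hg'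
  have hg : ∀ n r, HasDerivAt (picard A y₀ n s) (g' n r) r := by
    intro n r
    cases n with
    | zero => exact hasDerivAt_const r (y₀ s)
    | succ k =>
      have hf : Continuous fun r => A.op s r (picard A y₀ k s r) := by
        have hm : Continuous fun u : ℝ => ((s, u) : ℂ × ℝ) := by fun_prop
        exact (A.cont.comp hm).clm_apply ((continuous_picard A hy k).comp hm)
      have he : picard A y₀ (k + 1) s = fun x => ∫ v in (0:ℝ)..x, A.op s v (picard A y₀ k s v) := by
        funext x
        simp only [picard]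
        rw [intervalIntegral.smul_integral_comp_mul_left (f := fun v => A.op s v (picard A y₀ k s v))]
        simp
      rw [he]
      exact (hf.integral_hasStrictDerivAt 0 r).hasDerivAt
  set u : ℕ → ℝ := fun n => Nat.casesOn (motive := fun _ => ℝ) n 0
    (fun k => K * (‖y₀ s‖ * ((K * T) ^ k / k.factorial))) with hu
  have hus : Summable u := by
    rw [← summable_nat_add_iff 1]
    exact ((Real.summable_pow_div_factorial (K * T)).mul_left _).mul_left K
  have hb : ∀ n r, r ∈ Ioo (-T) T → ‖g' n r‖ ≤ u n := by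
    intro n r hr
    have hr' : |r| ≤ T := (abs_lt.2 hr).le
    cases n with
    | zero => simp [g', u]
    | succ k =>
      refine ((A.op s r).le_opNorm _).trans (mul_le_mul (hA' r hr')
        ((norm_picard_le A hy hK hA' k r hr').trans ?_) (norm_nonneg _) hK)
      gcongr
  have hmem : t ∈ Ioo (-T) T := ⟨by linarith [neg_abs_le t], by linarith [le_abs_self t]⟩
  have hsum : Summable fun n => picard A y₀ n s t :=
    Summable.of_norm_bounded ((Real.summable_pow_div_factorial (K * |t|)).mul_left _)
      fun n => norm_picard_le A hy hK hA' n t (by linarith)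
  refine (hasDerivAt_tsum_of_isPreconnected hus isOpen_Ioo isPreconnected_Ioo (fun n r _ => hg n r) hb
    hmem hsum hmem).congr_deriv ?_
  have hs' : Summable fun n => g' n t := Summable.of_norm_bounded hus fun n => hb n t hmem
  rw [hs'.tsum_eq_zero_add, flow, ContinuousLinearMap.map_tsum _ hsum]
  simp [g']

theorem differentiable_flow (A : Sys E) {y₀ : ℂ → E} (hy : Differentiable ℂ y₀) (t : ℝ) :
    Differentiable ℂ fun s => flow A y₀ s t := by
  intro s
  obtain ⟨K, hK, hA⟩ := exists_op_bound A (‖s‖ + 1) |t|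
  obtain ⟨M, hM⟩ := (isCompact_closedBall (0:ℂ) (‖s‖ + 1)).exists_bound_of_continuousOn hy.continuous.continuousOn
  refine (Complex.differentiableOn_tsum_of_summable_norm
    ((Real.summable_pow_div_factorial (K * |t|)).mul_left M) (F := fun n z => picard A y₀ n z t)
    (fun n => (differentiable_picard A hy n t).differentiableOn) (U := Metric.ball 0 (‖s‖ + 1))
    Metric.isOpen_ball fun n z hz => ?_).differentiableAt (Metric.isOpen_ball.mem_nhds (by simp))
  rw [Metric.mem_ball, dist_zero_right] at hz
  refine (norm_picard_le A hy.continuous hK (hA z hz.le) n t le_rfl).trans ?_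
  exact mul_le_mul_of_nonneg_right (hM z (by simpa using hz.le)) (by positivity)

theorem sys_unique (A : Sys E) {s : ℂ} {f g : ℝ → E} (hf : ∀ t, HasDerivAt f (A.op s t (f t)) t)
    (hg : ∀ t, HasDerivAt g (A.op s t (g t)) t) (h0 : f 0 = g 0) : f = g := by
  funext t
  obtain ⟨K, hK, hA⟩ := exists_op_bound A ‖s‖ (|t| + 1)
  have hmem : t ∈ Ioo (-(|t| + 1)) (|t| + 1) := ⟨by linarith [neg_abs_le t], by linarith [le_abs_self t]⟩
  refine (ODE_solution_unique_of_mem_Ioo (v := fun r y => A.op s r y) (s := fun _ => univ)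
    (K := K.toNNReal) (fun r hr => ?_) (t₀ := 0) ⟨by linarith [abs_nonneg t], by linarith [abs_nonneg t]⟩
    (fun r _ => ⟨hf r, mem_univ _⟩) (fun r _ => ⟨hg r, mem_univ _⟩) h0) hmem
  refine ((A.op s r).lipschitz.weaken ?_).lipschitzOnWith
  rw [← NNReal.coe_le_coe, coe_nnnorm, Real.coe_toNNReal K hK]
  exact hA s le_rfl r (abs_lt.2 hr).le

end

end Vale.Agent.P088
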