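import Mathlib
import Vale.Agent.P088.Core.Ode

/-!
# P088: Schrödinger pencils with operator coefficients
-/

open MeasureTheory Set Filter
open scoped Topology

namespace Vale.Agent.P088

noncomputable section

variable {𝔸 : Type*} [CStarAlgebra 𝔸]

/-- The two self-adjoint coefficients of the pencil. -/
structure Pot (𝔸 : Type*) [CStarAlgebra 𝔸] where
  B : ℝ → 𝔸
  D : ℝ → 𝔸
  contB : Continuous B
  contD : Continuous D
  starB : ∀ t, star (B t) = B t
  starD : ∀ t, star (D t) = D t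

namespace Pot

variable (P : Pot 𝔸)

/-- The potential of the pencil. -/
def q (s : ℂ) (t : ℝ) : 𝔸 := s ^ 2 • (1 : 𝔸) + s • P.B t + P.D t

theorem continuous_q : Continuous fun z : ℂ × ℝ => P.q z.1 z.2 :=
  ((continuous_fst.pow 2).smul continuous_const).add (continuous_fst.smul (P.contB.comp continuous_snd))
    |>.add (P.contD.comp continuous_snd)

theorem star_q (s : ℂ) (t : ℝ) : star (P.q s t) = P.q (star s) t := by
  simp [q, star_add, star_smul, P.starB, P.starD, star_pow]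

/-- The first-order system of the pencil. -/
def sys : Sys (𝔸 × 𝔸) where
  op s t := (ContinuousLinearMap.inl ℂ 𝔸 𝔸).comp (ContinuousLinearMap.snd ℂ 𝔸 𝔸) +
    ((ContinuousLinearMap.inr ℂ 𝔸 𝔸).comp
      ((ContinuousLinearMap.mul ℂ 𝔸 (P.q s t)).comp (ContinuousLinearMap.fst ℂ 𝔸 𝔸)))
  cont := by
    have hq := P.continuous_q
    fun_prop
  diff t := by
    have hq : Differentiable ℂ fun s => P.q s t := by unfold q; fun_prop
    fun_prop

theorem sys_op (s : ℂ) (t : ℝ) (y : 𝔸 × 𝔸) : P.sys.op s t y = (y.2, P.q s t * y.1) := by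
  simp [sys]

/-- A solution of the pencil with prescribed data at the origin. -/
def Z (a b : ℂ → 𝔸) (s : ℂ) (t : ℝ) : 𝔸 := (flow P.sys (fun z => (a z, b z)) s t).1

/-- Its derivative. -/
def Z' (a b : ℂ → 𝔸) (s : ℂ) (t : ℝ) : 𝔸 := (flow P.sys (fun z => (a z, b z)) s t).2

theorem hasDeriv_Z {a b : ℂ → 𝔸} (ha : Continuous a) (hb : Continuous b) (s : ℂ) (t : ℝ) :
    HasDerivAt (P.Z a b s) (P.Z' a b s t) t :=
  ((ContinuousLinearMap.fst ℝ 𝔸 𝔸).hasFDerivAt.comp_hasDerivAt t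
    (hasDerivAt_flow P.sys (ha.prodMk hb) s t)).congr_deriv (by simp [sys_op, Z'])

theorem hasDeriv_Z' {a b : ℂ → 𝔸} (ha : Continuous a) (hb : Continuous b) (s : ℂ) (t : ℝ) :
    HasDerivAt (P.Z' a b s) (P.q s t * P.Z a b s t) t :=
  ((ContinuousLinearMap.snd ℝ 𝔸 𝔸).hasFDerivAt.comp_hasDerivAt t
    (hasDerivAt_flow P.sys (ha.prodMk hb) s t)).congr_deriv (by simp [sys_op, Z])

theorem Z_zero (a b : ℂ → 𝔸) (s : ℂ) : P.Z a b s 0 = a s := by simp [Z, flow_zero]

theorem Z'_zero (a b : ℂ → 𝔸) (s : ℂ) : P.Z' a b s 0 = b s := by simp [Z', flow_zero]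

theorem differentiable_Z {a b : ℂ → 𝔸} (ha : Differentiable ℂ a) (hb : Differentiable ℂ b) (t : ℝ) :
    Differentiable ℂ fun s => P.Z a b s t :=
  (differentiable_flow P.sys (ha.prodMk hb) t).fst

theorem differentiable_Z' {a b : ℂ → 𝔸} (ha : Differentiable ℂ a) (hb : Differentiable ℂ b) (t : ℝ) :
    Differentiable ℂ fun s => P.Z' a b s t :=
  (differentiable_flow P.sys (ha.prodMk hb) t).snd

/-- A pair of functions solving the pencil at one parameter. -/
structure IsSol (s : ℂ) (f g : ℝ → 𝔸) : Prop where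
  d₁ : ∀ t, HasDerivAt f (g t) t
  d₂ : ∀ t, HasDerivAt g (P.q s t * f t) t

theorem isSol_Z {a b : ℂ → 𝔸} (ha : Continuous a) (hb : Continuous b) (s : ℂ) :
    P.IsSol s (P.Z a b s) (P.Z' a b s) :=
  ⟨P.hasDeriv_Z ha hb s, P.hasDeriv_Z' ha hb s⟩

theorem IsSol.unique {s : ℂ} {f g f₁ g₁ : ℝ → 𝔸} (h : P.IsSol s f g) (h₁ : P.IsSol s f₁ g₁)
    (e : f 0 = f₁ 0) (e' : g 0 = g₁ 0) : f = f₁ ∧ g = g₁ := by
  have := sys_unique P.sys (s := s) (f := fun t => (f t, g t)) (g := fun t => (f₁ t, g₁ t))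
    (fun t => ((h.d₁ t).prodMk (h.d₂ t)).congr_deriv (by simp [sys_op]))
    (fun t => ((h₁.d₁ t).prodMk (h₁.d₂ t)).congr_deriv (by simp [sys_op])) (by rw [e, e'])
  exact ⟨funext fun t => congrArg Prod.fst (congrFun this t), funext fun t => congrArg Prod.snd (congrFun this t)⟩

theorem IsSol.mul_right {P : Pot 𝔸} {s : ℂ} {f g : ℝ → 𝔸} (h : P.IsSol s f g) (c : 𝔸) :
    P.IsSol s (fun t => f t * c) fun t => g t * c :=
  ⟨fun t => (h.d₁ t).mul_const c, fun t => by simpa [mul_assoc] using (h.d₂ t).mul_const c⟩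

theorem IsSol.sub {P : Pot 𝔸} {s : ℂ} {f g f₁ g₁ : ℝ → 𝔸} (h : P.IsSol s f g)
    (h₁ : P.IsSol s f₁ g₁) : P.IsSol s (fun t => f t - f₁ t) fun t => g t - g₁ t :=
  ⟨fun t => (h.d₁ t).sub (h₁.d₁ t), fun t => by simpa [mul_sub] using (h.d₂ t).fun_sub (h₁.d₂ t)⟩

theorem IsSol.lagrange {P : Pot 𝔸} {s : ℂ} {f g f₁ g₁ : ℝ → 𝔸} (h : P.IsSol (star s) f g)
    (h₁ : P.IsSol s f₁ g₁) (t : ℝ) :
    star (f t) * g₁ t - star (g t) * f₁ t = star (f 0) * g₁ 0 - star (g 0) * f₁ 0 := by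
  have hd : ∀ r, HasDerivAt (fun r => star (f r) * g₁ r - star (g r) * f₁ r) 0 r := fun r => by
    refine (((h.d₁ r).star).mul (h₁.d₂ r) |>.sub (((h.d₂ r).star).mul (h₁.d₁ r))).congr_deriv ?_
    rw [star_mul, P.star_q, star_star, mul_assoc]; abel
  exact is_const_of_deriv_eq_zero (fun r => (hd r).differentiableAt) (fun r => (hd r).deriv) t 0

/-- The coefficients seen from the other end of the interval. -/
def rev (T : ℝ) : Pot 𝔸 where
  B t := P.B (T - t)
  D t := P.D (T - t)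
  contB := P.contB.comp (by fun_prop)
  contD := P.contD.comp (by fun_prop)
  starB t := P.starB _
  starD t := P.starD _

/-- The coefficients with the parameter reversed. -/
def flip : Pot 𝔸 where
  B t := -P.B t
  D := P.D
  contB := P.contB.neg
  contD := P.contD
  starB t := by simp [P.starB]
  starD := P.starD

theorem q_rev (T : ℝ) (s : ℂ) (t : ℝ) : (P.rev T).q s t = P.q s (T - t) := rfl

theorem q_flip (s : ℂ) (t : ℝ) : P.flip.q s t = P.q (-s) t := by simp [q, flip]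

theorem IsSol.of_flip {P : Pot 𝔸} {s : ℂ} {f g : ℝ → 𝔸} (h : P.flip.IsSol s f g) : P.IsSol (-s) f g :=
  ⟨h.d₁, fun t => P.q_flip s t ▸ h.d₂ t⟩

/-- The solution vanishing at the origin with unit derivative. -/
def S (s : ℂ) (t : ℝ) : 𝔸 := P.Z (fun _ => 0) (fun _ => 1) s t

/-- Its derivative. -/
def S' (s : ℂ) (t : ℝ) : 𝔸 := P.Z' (fun _ => 0) (fun _ => 1) s t

theorem isSol_S (s : ℂ) : P.IsSol s (P.S s) (P.S' s) := P.isSol_Z continuous_const continuous_const s

theorem S_zero (s : ℂ) : P.S s 0 = 0 := P.Z_zero _ _ s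

theorem S'_zero (s : ℂ) : P.S' s 0 = 1 := P.Z'_zero _ _ s

/-- The solution with value one and derivative `h` at the origin. -/
def C (h : 𝔸) (s : ℂ) (t : ℝ) : 𝔸 := P.Z (fun _ => 1) (fun _ => h) s t

/-- Its derivative. -/
def C' (h : 𝔸) (s : ℂ) (t : ℝ) : 𝔸 := P.Z' (fun _ => 1) (fun _ => h) s t

theorem isSol_C (h : 𝔸) (s : ℂ) : P.IsSol s (P.C h s) (P.C' h s) :=
  P.isSol_Z continuous_const continuous_const s

theorem C_zero (h : 𝔸) (s : ℂ) : P.C h s 0 = 1 := P.Z_zero _ _ s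

theorem C'_zero (h : 𝔸) (s : ℂ) : P.C' h s 0 = h := P.Z'_zero _ _ s

/-- The value at the origin of the solution vanishing at `T`. -/
def W (T : ℝ) (s : ℂ) : 𝔸 := (P.rev T).S s T

/-- Minus its derivative at the origin. -/
def W' (T : ℝ) (s : ℂ) : 𝔸 := (P.rev T).S' s T

theorem differentiable_W (T : ℝ) : Differentiable ℂ (P.W T) :=
  (P.rev T).differentiable_Z (differentiable_const _) (differentiable_const _) T

theorem differentiable_W' (T : ℝ) : Differentiable ℂ (P.W' T) :=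
  (P.rev T).differentiable_Z' (differentiable_const _) (differentiable_const _) T

theorem isSol_end (T : ℝ) (s : ℂ) :
    P.IsSol s (fun t => (P.rev T).S s (T - t)) fun t => -(P.rev T).S' s (T - t) := by
  have hi : ∀ t : ℝ, HasDerivAt (fun r => T - r) (-1) t := fun t => (hasDerivAt_id' t).const_sub T
  refine ⟨fun t => ?_, fun t => ?_⟩
  · exact (((P.rev T).isSol_S s).d₁ (T - t)).scomp t (hi t) |>.congr_deriv (by simp)
  · refine ((((P.rev T).isSol_S s).d₂ (T - t)).scomp t (hi t)).neg.congr_deriv ?_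
    simp [q_rev]

end Pot

end

end Vale.Agent.P088
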