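import Mathlib
import Vale.Agent.P088.Core.Pot
import Vale.Agent.P136.Ode

/-!
# P088: the growing solution of a pencil for large parameter
-/

open MeasureTheory Set Filter
open scoped Topology

namespace Vale.Agent.P088

noncomputable section

/-- Gronwall's inequality in integral form. -/
theorem integral_gronwall {f : ℝ → ℝ} {c K T : ℝ} (hf : Continuous f) (hK : 0 ≤ K)
    (h : ∀ t ∈ Icc 0 T, f t ≤ c + K * ∫ r in (0:ℝ)..t, f r) {t : ℝ} (ht : t ∈ Icc 0 T) :
    f t ≤ c * Real.exp (K * t) := by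
  have hd : ∀ r ∈ Icc 0 T, HasDerivAt (fun x => c + K * ∫ y in (0:ℝ)..x, f y) (K * f r) r := fun r _ =>
    ((hf.integral_hasStrictDerivAt 0 r).hasDerivAt.const_mul K).const_add c
  refine (h t ht).trans ?_
  simpa using Vale.Agent.P136.gronwall_le hd (fun r hr => mul_le_mul_of_nonneg_left (h r hr) hK) ht

theorem integral_exp_neg_le {a : ℝ} (ha : 0 < a) {t : ℝ} :
    ∫ r in (0:ℝ)..t, Real.exp (-(a * r)) ≤ 1 / a := by
  have hd : ∀ r ∈ uIcc 0 t, HasDerivAt (fun x => -Real.exp (-(a * x)) / a) (Real.exp (-(a * r))) r := by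
    intro r _
    refine ((((hasDerivAt_id' r).const_mul a).fun_neg.exp).fun_neg.div_const a).congr_deriv ?_
    field_simp
  rw [intervalIntegral.integral_eq_sub_of_hasDerivAt hd ((Continuous.intervalIntegrable (by fun_prop)) _ _)]
  simp only [mul_zero, neg_zero, Real.exp_zero]
  field_simp
  linarith [Real.exp_pos (-(a * t))]

theorem integral_exp_diff_le {a : ℝ} (ha : 0 < a) {t : ℝ} :
    ∫ r in (0:ℝ)..t, Real.exp (-(a * (t - r))) ≤ 1 / a := by
  rw [intervalIntegral.integral_comp_sub_left (fun y => Real.exp (-(a * y)))]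
  simpa using integral_exp_neg_le ha

variable {𝔸 : Type*} [CStarAlgebra 𝔸] [Nontrivial 𝔸]

/-- An element close to an invertible one is invertible, with a bound on the inverse. -/
theorem isUnit_of_near {x v y : 𝔸} (hxv : x * v = 1) (hvx : v * x = 1) (h : ‖y - x‖ * ‖v‖ ≤ 1 / 2) :
    IsUnit y ∧ ‖Ring.inverse y‖ ≤ 2 * ‖v‖ := by
  set e : 𝔸 := (x - y) * v with he
  have hen : ‖e‖ ≤ 1 / 2 := (norm_mul_le _ _).trans (by rwa [norm_sub_rev])
  have h1 : IsUnit (1 - e) := (Units.oneSub e (by linarith)).isUnit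
  have hy : y = (1 - e) * x := by
    rw [he, sub_mul, one_mul, mul_assoc, hvx, mul_one, sub_sub_cancel]
  have hu : IsUnit y := hy ▸ h1.mul ⟨⟨x, v, hxv, hvx⟩, rfl⟩
  refine ⟨hu, ?_⟩
  have hv : Ring.inverse y = v + Ring.inverse y * ((x - y) * v) := by
    calc Ring.inverse y = Ring.inverse y * (x * v) := by rw [hxv, mul_one]
      _ = Ring.inverse y * (y * v + (x - y) * v) := by rw [← add_mul, add_sub_cancel]
      _ = _ := by rw [mul_add, ← mul_assoc (Ring.inverse y) y v, Ring.inverse_mul_cancel y hu, one_mul]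
  have hb : ‖Ring.inverse y‖ ≤ ‖v‖ + ‖Ring.inverse y‖ * (1 / 2) :=
    (congrArg norm hv).trans_le ((norm_add_le _ _).trans (add_le_add le_rfl
      ((norm_mul_le _ _).trans (mul_le_mul_of_nonneg_left hen (norm_nonneg _)))))
  linarith

namespace Pot

variable (P : Pot 𝔸)

/-- The system of the amplitude. -/
def ampSys : Sys 𝔸 where
  op _ r := (1 / 2 : ℂ) • ContinuousLinearMap.mul ℂ 𝔸 (P.B r)
  cont := by
    have hB := P.contB
    fun_prop
  diff _ := differentiable_const _

/-- The system of its inverse. -/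
def ampInvSys : Sys 𝔸 where
  op _ r := (-(1 / 2) : ℂ) • (ContinuousLinearMap.mul ℂ 𝔸).flip (P.B r)
  cont := by
    have hB := P.contB
    fun_prop
  diff _ := differentiable_const _

/-- The amplitude of the growing solution. -/
def amp (t : ℝ) : 𝔸 := flow P.ampSys (fun _ => 1) 0 t

/-- The inverse of the amplitude. -/
def ampInv (t : ℝ) : 𝔸 := flow P.ampInvSys (fun _ => 1) 0 t

omit [Nontrivial 𝔸] in
theorem hasDeriv_amp (t : ℝ) : HasDerivAt P.amp ((1 / 2 : ℂ) • (P.B t * P.amp t)) t :=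
  (hasDerivAt_flow _ continuous_const 0 t).congr_deriv (by simp [amp, ampSys])

omit [Nontrivial 𝔸] in
theorem hasDeriv_ampInv (t : ℝ) : HasDerivAt P.ampInv ((-(1 / 2) : ℂ) • (P.ampInv t * P.B t)) t :=
  (hasDerivAt_flow _ continuous_const 0 t).congr_deriv (by simp [ampInv, ampInvSys])

omit [Nontrivial 𝔸] in
theorem amp_zero : P.amp 0 = 1 := flow_zero _ _ _

omit [Nontrivial 𝔸] in
theorem continuous_amp : Continuous P.amp := continuous_iff_continuousAt.2 fun t => (P.hasDeriv_amp t).continuousAt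

omit [Nontrivial 𝔸] in
theorem continuous_ampInv : Continuous P.ampInv :=
  continuous_iff_continuousAt.2 fun t => (P.hasDeriv_ampInv t).continuousAt

omit [Nontrivial 𝔸] in
theorem ampInv_mul (t : ℝ) : P.ampInv t * P.amp t = 1 := by
  have hd : ∀ r, HasDerivAt (fun r => P.ampInv r * P.amp r) 0 r := fun r => by
    refine ((P.hasDeriv_ampInv r).mul (P.hasDeriv_amp r)).congr_deriv ?_
    simp [smul_mul_assoc, mul_smul_comm, mul_assoc]
  rw [is_const_of_deriv_eq_zero (fun r => (hd r).differentiableAt) (fun r => (hd r).deriv) t 0]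
  simp [amp, ampInv, flow_zero]

omit [Nontrivial 𝔸] in
theorem amp_mul_ampInv (t : ℝ) : P.amp t * P.ampInv t = 1 := by
  let A : Sys 𝔸 := ⟨fun _ r => (1 / 2 : ℂ) • (ContinuousLinearMap.mul ℂ 𝔸 (P.B r) -
      (ContinuousLinearMap.mul ℂ 𝔸).flip (P.B r)),
    by
      have hB := P.contB
      fun_prop,
    fun _ => differentiable_const _⟩
  refine congrFun (sys_unique A (s := 0) (f := fun r => P.amp r * P.ampInv r) (g := fun _ => 1)
    (fun r => ?_) (fun r => (hasDerivAt_const r (1 : 𝔸)).congr_deriv ?_) ?_) t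
  · refine ((P.hasDeriv_amp r).mul (P.hasDeriv_ampInv r)).congr_deriv ?_
    simp [A, smul_mul_assoc, mul_smul_comm, mul_assoc, smul_sub]
    abel
  · simp [A]
  · simp [amp, ampInv, flow_zero]

/-- The growing part of the solution which vanishes at the origin. -/
def uPart (s : ℂ) (t : ℝ) : 𝔸 := Complex.exp (-s * t) • (P.S' s t + s • P.S s t)

/-- Its bounded companion. -/
def wPart (s : ℂ) (t : ℝ) : 𝔸 := Complex.exp (-s * t) • (P.S' s t - s • P.S s t)

omit [Nontrivial 𝔸] in
theorem hasDerivAt_exp (s : ℂ) (t : ℝ) :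
    HasDerivAt (fun r : ℝ => Complex.exp (s * r)) (s * Complex.exp (s * t)) t := by
  simpa [mul_comm] using (((hasDerivAt_id' (t : ℂ)).const_mul s).cexp).comp_ofReal

/-- The reduced coefficient. -/
def red (s : ℂ) (t : ℝ) : 𝔸 := (1 / 2 : ℂ) • P.B t + (1 / (2 * s)) • P.D t

omit [Nontrivial 𝔸] in
theorem continuous_red (s : ℂ) : Continuous (P.red s) :=
  (P.contB.const_smul _).add (P.contD.const_smul _)

omit [Nontrivial 𝔸] in
theorem norm_red_le {s : ℂ} {t K : ℝ} (hs : 1 ≤ ‖s‖) (hB : ‖P.B t‖ ≤ K) (hD : ‖P.D t‖ ≤ K) :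
    ‖P.red s t‖ ≤ K := by
  refine (norm_add_le _ _).trans ?_
  rw [norm_smul, norm_smul]
  have h : ‖(1 / (2 * s) : ℂ)‖ ≤ 1 / 2 := by
    simp only [norm_div, norm_one, norm_mul, Complex.norm_ofNat]
    exact one_div_le_one_div_of_le two_pos (by linarith)
  have := mul_le_mul h hD (norm_nonneg _) (by norm_num)
  norm_num
  norm_num at this
  linarith

omit [Nontrivial 𝔸] in
theorem u_sub_w (s : ℂ) (t : ℝ) :
    P.uPart s t - P.wPart s t = (2 * s * Complex.exp (-s * t)) • P.S s t := by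
  simp only [uPart, wPart]; module

omit [Nontrivial 𝔸] in
theorem u_add_w (s : ℂ) (t : ℝ) :
    P.uPart s t + P.wPart s t = (2 * Complex.exp (-s * t)) • P.S' s t := by
  simp only [uPart, wPart]; module

omit [Nontrivial 𝔸] in
theorem hasDeriv_uPart {s : ℂ} (hs : s ≠ 0) (t : ℝ) :
    HasDerivAt (P.uPart s) (P.red s t * (P.uPart s t - P.wPart s t)) t := by
  have h := P.isSol_S s
  refine ((hasDerivAt_exp (-s) t).smul ((h.d₂ t).add ((h.d₁ t).const_smul s))).congr_deriv ?_
  rw [u_sub_w]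
  simp only [red, q, add_mul, smul_mul_assoc, mul_smul_comm, one_mul, Pi.add_apply, Pi.smul_apply]
  match_scalars <;> field_simp <;> ring

omit [Nontrivial 𝔸] in
theorem hasDeriv_wPart {s : ℂ} (hs : s ≠ 0) (t : ℝ) :
    HasDerivAt (fun r : ℝ => Complex.exp (2 * s * r) • P.wPart s r)
      (Complex.exp (2 * s * t) • (P.red s t * (P.uPart s t - P.wPart s t))) t := by
  have h := P.isSol_S s
  refine ((hasDerivAt_exp (2 * s) t).smul
    ((hasDerivAt_exp (-s) t).smul ((h.d₂ t).sub ((h.d₁ t).const_smul s)))).congr_deriv ?_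
  rw [u_sub_w]
  simp only [red, q, add_mul, smul_mul_assoc, mul_smul_comm, one_mul, Pi.sub_apply, Pi.smul_apply, Pi.smul_apply']
  match_scalars <;> field_simp <;> ring

/-- The estimates on the growing solution. -/
structure Est (T C : ℝ) : Prop where
  nonneg : 0 ≤ C
  amp : ∀ t ∈ Icc 0 T, ‖P.amp t‖ ≤ C
  inv : ∀ t ∈ Icc 0 T, ‖P.ampInv t‖ ≤ C
  small : ∀ s : ℂ, 1 ≤ s.re → ∀ t ∈ Icc 0 T,
    ‖P.uPart s t - 1‖ ≤ C * t ∧ ‖P.wPart s t - Complex.exp (-(2 * s) * t) • (1 : 𝔸)‖ ≤ C * t
  large : ∀ s : ℂ, 1 ≤ s.re → ∀ t ∈ Icc 0 T,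
    ‖P.uPart s t - P.amp t‖ ≤ C / s.re ∧
      ‖P.wPart s t - Complex.exp (-(2 * s) * t) • (1 : 𝔸)‖ ≤ C / s.re

omit [Nontrivial 𝔸] in
theorem norm_exp_mul (s : ℂ) (t : ℝ) : ‖Complex.exp (s * t)‖ = Real.exp (s.re * t) := by
  simp [Complex.norm_exp]

theorem exists_est {T : ℝ} (hT : 0 ≤ T) : ∃ C, P.Est T C := by
  obtain ⟨Kb, hKb⟩ := (isCompact_Icc (a := (0:ℝ)) (b := T)).exists_bound_of_continuousOn P.contB.continuousOn
  obtain ⟨Kd, hKd⟩ := (isCompact_Icc (a := (0:ℝ)) (b := T)).exists_bound_of_continuousOn P.contD.continuousOn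
  obtain ⟨Ka, hKa⟩ := (isCompact_Icc (a := (0:ℝ)) (b := T)).exists_bound_of_continuousOn P.continuous_amp.continuousOn
  obtain ⟨Ki, hKi⟩ := (isCompact_Icc (a := (0:ℝ)) (b := T)).exists_bound_of_continuousOn P.continuous_ampInv.continuousOn
  set K := max (max Kb Kd) 0 with hK
  have hK0 : 0 ≤ K := le_max_right _ _
  have hB : ∀ t ∈ Icc 0 T, ‖P.B t‖ ≤ K := fun t ht =>
    (hKb t ht).trans ((le_max_left _ _).trans (le_max_left _ _))
  have hD : ∀ t ∈ Icc 0 T, ‖P.D t‖ ≤ K := fun t ht =>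
    (hKd t ht).trans ((le_max_right _ _).trans (le_max_left _ _))
  set M := 2 * Real.exp (2 * K * T) with hM
  set C₁ := (K + 2 * K ^ 2 * M * T + K * M * T) * Real.exp (K * T) with hC₁
  refine ⟨max Ka 0 + max Ki 0 + K * M + C₁, ?_⟩
  have hM0 : 0 ≤ M := by positivity
  have hC₁0 : 0 ≤ C₁ := by positivity
  have hKM : 0 ≤ K * M := by positivity
  have key : ∀ s : ℂ, 1 ≤ s.re → (∀ t ∈ Icc 0 T, ‖P.uPart s t - 1‖ ≤ K * M * t ∧
      ‖P.wPart s t - Complex.exp (-(2 * s) * t) • (1 : 𝔸)‖ ≤ K * M * t ∧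
      ‖P.wPart s t - Complex.exp (-(2 * s) * t) • (1 : 𝔸)‖ ≤ K * M / s.re ∧
      ‖P.uPart s t - P.amp t‖ ≤ C₁ / s.re) := by
    intro s hs
    have hs1 : 1 ≤ ‖s‖ := hs.trans (Complex.re_le_norm s)
    have hs0 : s ≠ 0 := norm_pos_iff.1 (one_pos.trans_le hs1)
    have hξ : (0:ℝ) < s.re := one_pos.trans_le hs
    set u := P.uPart s with hu
    set w := P.wPart s with hw
    have huc : Continuous u := continuous_iff_continuousAt.2 fun t => (P.hasDeriv_uPart hs0 t).continuousAt
    have hwc : Continuous w := by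
      have hg : Continuous fun r : ℝ => Complex.exp (2 * s * r) • w r :=
        continuous_iff_continuousAt.2 fun t => (P.hasDeriv_wPart hs0 t).continuousAt
      have he : w = fun r : ℝ => Complex.exp (-(2 * s * r)) • (Complex.exp (2 * s * r) • w r) := by
        funext r; rw [smul_smul, ← Complex.exp_add, neg_add_cancel, Complex.exp_zero, one_smul]
      rw [he]
      exact (Continuous.smul (by fun_prop) hg)
    set f : ℝ → 𝔸 := fun r => P.red s r * (u r - w r) with hf
    have hfc : Continuous f := (P.continuous_red s).mul (huc.sub hwc)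
    set N : ℝ → ℝ := fun r => ‖u r‖ + ‖w r‖ with hN
    have hNc : Continuous N := huc.norm.add hwc.norm
    have hN0 : ∀ r, 0 ≤ N r := fun r => by positivity
    have hu1 : ∀ t : ℝ, u t = 1 + ∫ r in (0:ℝ)..t, f r := by
      intro t
      rw [intervalIntegral.integral_eq_sub_of_hasDerivAt (fun r _ => P.hasDeriv_uPart hs0 r)
        (hfc.intervalIntegrable 0 t)]
      simp [u, uPart, S_zero, S'_zero]
    have hw1 : ∀ t : ℝ, w t - Complex.exp (-(2 * s) * t) • (1 : 𝔸) =
        ∫ r in (0:ℝ)..t, Complex.exp (-(2 * s) * ((t - r : ℝ) : ℂ)) • f r := by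
      intro t
      have hi : Continuous fun r : ℝ => Complex.exp (2 * s * r) • f r :=
        Continuous.smul (by fun_prop) hfc
      have e : (fun r : ℝ => Complex.exp (-(2 * s) * ((t - r : ℝ) : ℂ)) • f r) =
          fun r : ℝ => Complex.exp (-(2 * s) * t) • (Complex.exp (2 * s * r) • f r) := by
        funext r; rw [smul_smul, ← Complex.exp_add]; push_cast; ring_nf
      rw [e, intervalIntegral.integral_smul,
        intervalIntegral.integral_eq_sub_of_hasDerivAt (fun r _ => P.hasDeriv_wPart hs0 r)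
          (hi.intervalIntegrable 0 t)]
      simp only [Complex.ofReal_zero, mul_zero, Complex.exp_zero, one_smul, smul_sub, smul_smul,
        ← Complex.exp_add, neg_mul, neg_add_cancel]
      simp [w, wPart, S_zero, S'_zero]
    have hfN : ∀ r ∈ Icc 0 T, ‖f r‖ ≤ K * N r := fun r hr =>
      (norm_mul_le _ _).trans (mul_le_mul (P.norm_red_le hs1 (hB r hr) (hD r hr)) (norm_sub_le _ _)
        (norm_nonneg _) hK0)
    have hsub : ∀ t ∈ Icc 0 T, Icc 0 t ⊆ Icc 0 T := fun t ht => Icc_subset_Icc le_rfl ht.2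
    have hub : ∀ t ∈ Icc 0 T, ‖u t - 1‖ ≤ K * ∫ r in (0:ℝ)..t, N r := by
      intro t ht
      rw [hu1 t, add_sub_cancel_left, ← intervalIntegral.integral_const_mul]
      exact (intervalIntegral.norm_integral_le_integral_norm ht.1).trans
        (intervalIntegral.integral_mono_on ht.1 (hfc.norm.intervalIntegrable _ _)
          ((hNc.const_mul K).intervalIntegrable _ _) fun r hr => hfN r (hsub t ht hr))
    have hen : ∀ x : ℝ, 0 ≤ x → ‖Complex.exp (-(2 * s) * x)‖ ≤ 1 := fun x hx => by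
      rw [norm_exp_mul, Real.exp_le_one_iff]; simp; nlinarith
    have hwb : ∀ t ∈ Icc 0 T, ‖w t - Complex.exp (-(2 * s) * t) • (1 : 𝔸)‖ ≤
        K * ∫ r in (0:ℝ)..t, N r := by
      intro t ht
      rw [hw1 t, ← intervalIntegral.integral_const_mul]
      refine (intervalIntegral.norm_integral_le_integral_norm ht.1).trans
        (intervalIntegral.integral_mono_on ht.1 ((Continuous.intervalIntegrable (by fun_prop)) _ _)
          ((hNc.const_mul K).intervalIntegrable _ _) fun r hr => ?_)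
      rw [norm_smul]
      exact (mul_le_of_le_one_left (norm_nonneg _) (hen _ (by linarith [hr.2]))).trans (hfN r (hsub t ht hr))
    have hNM : ∀ t ∈ Icc 0 T, N t ≤ M := by
      intro t ht
      refine (integral_gronwall hNc (by positivity : 0 ≤ 2 * K) (c := 2) (fun r hr => ?_) ht).trans ?_
      · have h1 := norm_le_norm_add_norm_sub' (u r) 1
        have h2 := norm_le_norm_add_norm_sub' (w r) (Complex.exp (-(2 * s) * r) • (1 : 𝔸))
        have h3 : ‖Complex.exp (-(2 * s) * r) • (1 : 𝔸)‖ ≤ 1 := by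
          rw [norm_smul, CStarRing.norm_one, mul_one]; exact hen r hr.1
        rw [CStarRing.norm_one] at h1
        simp only [N]
        linarith [hub r hr, hwb r hr]
      · rw [hM]; gcongr; exact ht.2
    have hNint : ∀ t ∈ Icc 0 T, ∫ r in (0:ℝ)..t, N r ≤ M * t := by
      intro t ht
      refine (intervalIntegral.integral_mono_on ht.1 (hNc.intervalIntegrable _ _) intervalIntegrable_const
        fun r hr => hNM r (hsub t ht hr)).trans (le_of_eq ?_)
      rw [intervalIntegral.integral_const, sub_zero, smul_eq_mul, mul_comm]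
    have hw2 : ∀ t ∈ Icc 0 T, ‖w t - Complex.exp (-(2 * s) * t) • (1 : 𝔸)‖ ≤ K * M / s.re := by
      intro t ht
      rw [hw1 t]
      have hb : ∀ r ∈ Icc 0 t, ‖Complex.exp (-(2 * s) * ((t - r : ℝ) : ℂ)) • f r‖ ≤
          K * M * Real.exp (-(2 * s.re * (t - r))) := by
        intro r hr
        rw [norm_smul, norm_exp_mul, show (-(2 * s)).re = -(2 * s.re) by simp, neg_mul, mul_comm (Real.exp _)]
        exact mul_le_mul_of_nonneg_right ((hfN r (hsub t ht hr)).trans
          (mul_le_mul_of_nonneg_left (hNM r (hsub t ht hr)) hK0)) (Real.exp_pos _).le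
      refine (intervalIntegral.norm_integral_le_integral_norm ht.1).trans
        ((intervalIntegral.integral_mono_on ht.1 ((Continuous.intervalIntegrable (by fun_prop)) _ _)
          ((Continuous.intervalIntegrable (by fun_prop)) _ _) hb).trans ?_)
      rw [intervalIntegral.integral_const_mul]
      refine (mul_le_mul_of_nonneg_left (integral_exp_diff_le (by positivity)) hKM).trans ?_
      rw [mul_one_div]
      exact div_le_div_of_nonneg_left hKM hξ (by linarith)
    intro t ht
    refine ⟨(hub t ht).trans ?_, (hwb t ht).trans ?_, hw2 t ht, ?_⟩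
    · rw [mul_assoc]; exact mul_le_mul_of_nonneg_left (hNint t ht) hK0
    · rw [mul_assoc]; exact mul_le_mul_of_nonneg_left (hNint t ht) hK0
    set g : ℝ → ℝ := fun r => ‖u r - P.amp r‖ with hg
    have hgc : Continuous g := (huc.sub P.continuous_amp).norm
    refine (integral_gronwall hgc hK0 (c := (K + 2 * K ^ 2 * M * T + K * M * T) / s.re) (fun r hr => ?_)
      ht).trans ?_
    · have hai : Continuous fun x => (1 / 2 : ℂ) • (P.B x * P.amp x) :=
        (P.contB.mul P.continuous_amp).const_smul _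
      have e : u r - P.amp r = ∫ x in (0:ℝ)..r, (f x - (1 / 2 : ℂ) • (P.B x * P.amp x)) := by
        rw [intervalIntegral.integral_sub (hfc.intervalIntegrable _ _) (hai.intervalIntegrable _ _),
          intervalIntegral.integral_eq_sub_of_hasDerivAt (fun x _ => P.hasDeriv_amp x)
            (hai.intervalIntegrable _ _), hu1 r, P.amp_zero]
        abel
      have hpt : ∀ x ∈ Icc 0 r, ‖f x - (1 / 2 : ℂ) • (P.B x * P.amp x)‖ ≤
          K * g x + (K * (Real.exp (-(2 * s.re * x)) + K * M / s.re) + K * M / s.re) := by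
        intro x hx
        have hxT := hsub r hr hx
        have e2 : f x - (1 / 2 : ℂ) • (P.B x * P.amp x) = (1 / 2 : ℂ) • (P.B x * (u x - P.amp x)) -
            (1 / 2 : ℂ) • (P.B x * w x) + (1 / (2 * s)) • (P.D x * (u x - w x)) := by
          simp only [f, red, add_mul, smul_mul_assoc, mul_sub, smul_sub]; abel
        rw [e2]
        have hh : ‖(1 / 2 : ℂ)‖ ≤ 1 := by norm_num
        refine (norm_add_le _ _).trans (add_le_add ((norm_sub_le _ _).trans (add_le_add ?_ ?_)) ?_ |>.trans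
          (le_of_eq (add_assoc _ _ _)))
        · rw [norm_smul]
          exact (mul_le_of_le_one_left (norm_nonneg _) hh).trans ((norm_mul_le _ _).trans
            (mul_le_mul_of_nonneg_right (hB x hxT) (norm_nonneg _)))
        · rw [norm_smul]
          refine (mul_le_of_le_one_left (norm_nonneg _) hh).trans ((norm_mul_le _ _).trans ?_)
          refine mul_le_mul (hB x hxT) ?_ (norm_nonneg _) hK0
          refine (norm_le_norm_add_norm_sub' _ (Complex.exp (-(2 * s) * x) • (1 : 𝔸))).trans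
            (add_le_add (le_of_eq ?_) (hw2 x hxT))
          rw [norm_smul, norm_exp_mul, CStarRing.norm_one, mul_one]; simp
        · rw [norm_smul]
          have h1 : ‖(1 / (2 * s) : ℂ)‖ ≤ 1 / s.re := by
            simp only [norm_div, norm_one, norm_mul, Complex.norm_ofNat]
            exact one_div_le_one_div_of_le hξ (by linarith [Complex.re_le_norm s, norm_nonneg s])
          refine (mul_le_mul h1 ((norm_mul_le _ _).trans (mul_le_mul (hD x hxT)
            ((norm_sub_le _ _).trans (hNM x hxT)) (norm_nonneg _) hK0)) (norm_nonneg _) (by positivity)).trans ?_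
          rw [one_div_mul_eq_div]
      simp only [g]
      rw [e]
      refine (intervalIntegral.norm_integral_le_integral_norm hr.1).trans
        ((intervalIntegral.integral_mono_on hr.1
          (((hfc.sub hai).norm).intervalIntegrable _ _)
          ((Continuous.intervalIntegrable (by fun_prop)) _ _) hpt).trans ?_)
      rw [intervalIntegral.integral_add ((Continuous.intervalIntegrable (by fun_prop)) _ _)
          ((Continuous.intervalIntegrable (by fun_prop)) _ _),
        intervalIntegral.integral_add ((Continuous.intervalIntegrable (by fun_prop)) _ _)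
          intervalIntegrable_const,
        intervalIntegral.integral_const_mul, intervalIntegral.integral_const_mul,
        intervalIntegral.integral_add ((Continuous.intervalIntegrable (by fun_prop)) _ _)
          intervalIntegrable_const,
        intervalIntegral.integral_const, sub_zero, smul_eq_mul]
      have i1 : ∫ x in (0:ℝ)..r, Real.exp (-(2 * s.re * x)) ≤ 1 / s.re :=
        (integral_exp_neg_le (by positivity)).trans (one_div_le_one_div_of_le hξ (by linarith))
      have i2 : r * (K * M / s.re) ≤ T * (K * M / s.re) :=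
        mul_le_mul_of_nonneg_right hr.2 (by positivity)
      calc K * (∫ x in (0:ℝ)..r, g x) +
            (K * ((∫ x in (0:ℝ)..r, Real.exp (-(2 * s.re * x))) + r * (K * M / s.re)) + r * (K * M / s.re))
          ≤ K * (∫ x in (0:ℝ)..r, g x) +
            (K * (1 / s.re + T * (K * M / s.re)) + T * (K * M / s.re)) := by gcongr
        _ ≤ _ := by
          have : K * (1 / s.re + T * (K * M / s.re)) + T * (K * M / s.re) ≤
              (K + 2 * K ^ 2 * M * T + K * M * T) / s.re := by
            rw [le_div_iff₀ hξ]; field_simp; nlinarith [mul_nonneg (mul_nonneg (sq_nonneg K) hM0) hT]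
          linarith
    · rw [hC₁, div_mul_eq_mul_div]
      gcongr
      exact ht.2
  refine ⟨by positivity, fun t ht => (hKa t ht).trans ?_, fun t ht => (hKi t ht).trans ?_,
    fun s hs t ht => ?_, fun s hs t ht => ?_⟩
  · linarith [le_max_left Ka 0, le_max_right Ki 0]
  · linarith [le_max_left Ki 0, le_max_right Ka 0]
  · have hC : K * M * t ≤ (max Ka 0 + max Ki 0 + K * M + C₁) * t :=
      mul_le_mul_of_nonneg_right (by linarith [le_max_right Ka 0, le_max_right Ki 0]) ht.1
    exact ⟨(key s hs t ht).1.trans hC, (key s hs t ht).2.1.trans hC⟩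
  · have hξ : (0:ℝ) ≤ s.re := zero_le_one.trans hs
    exact ⟨(key s hs t ht).2.2.2.trans (div_le_div_of_nonneg_right
        (by linarith [le_max_right Ka 0, le_max_right Ki 0]) hξ),
      (key s hs t ht).2.2.1.trans (div_le_div_of_nonneg_right
        (by linarith [le_max_right Ka 0, le_max_right Ki 0]) hξ)⟩

/-- Bounds and invertibility for the growing solution. -/
structure Growth (T R C : ℝ) : Prop where
  one_le : 1 ≤ R
  nonneg : 0 ≤ C
  bound : ∀ s : ℂ, R ≤ s.re → ∀ t ∈ Icc 0 T,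
    ‖P.S s t‖ ≤ C * Real.exp (s.re * t) / ‖s‖ ∧ ‖P.S' s t‖ ≤ C * Real.exp (s.re * t)
  unit : ∀ s : ℂ, R ≤ s.re → IsUnit (P.S s T) ∧
    ‖Ring.inverse (P.S s T)‖ ≤ C * ‖s‖ * Real.exp (-(s.re * T))
  unit_real : ∀ x : ℝ, R ≤ x → ∀ t ∈ Ioc 0 T, IsUnit (P.S (x : ℂ) t)
  ratio : ∀ x : ℝ, R ≤ x →
    ‖(x : ℂ)⁻¹ • (P.S' (x : ℂ) T * Ring.inverse (P.S (x : ℂ) T)) - 1‖ ≤ C / x

omit [Nontrivial 𝔸] in
theorem exp_neg_le_inv {y : ℝ} (hy : 0 < y) : Real.exp (-y) ≤ 1 / y := by
  rw [Real.exp_neg, ← one_div]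
  exact one_div_le_one_div_of_le hy (le_trans (by linarith) (Real.add_one_le_exp y))

omit [Nontrivial 𝔸] in
theorem S_eq {s : ℂ} (hs : s ≠ 0) (t : ℝ) :
    P.S s t = (Complex.exp (s * t) / (2 * s)) • (P.uPart s t - P.wPart s t) := by
  rw [u_sub_w, smul_smul, show Complex.exp (s * t) / (2 * s) * (2 * s * Complex.exp (-s * t)) =
    Complex.exp (s * t) * Complex.exp (-s * t) by field_simp, ← Complex.exp_add]
  simp

omit [Nontrivial 𝔸] in
theorem S'_eq (s : ℂ) (t : ℝ) :
    P.S' s t = (Complex.exp (s * t) / 2) • (P.uPart s t + P.wPart s t) := by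
  rw [u_add_w, smul_smul, show Complex.exp (s * t) / 2 * (2 * Complex.exp (-s * t)) =
    Complex.exp (s * t) * Complex.exp (-s * t) by ring, ← Complex.exp_add]
  simp

omit [Nontrivial 𝔸] in
theorem inverse_S {s : ℂ} (hs : s ≠ 0) {t : ℝ} (h : IsUnit (P.uPart s t - P.wPart s t)) :
    IsUnit (P.S s t) ∧
      Ring.inverse (P.S s t) = (2 * s / Complex.exp (s * t)) • Ring.inverse (P.uPart s t - P.wPart s t) := by
  obtain ⟨u, hu⟩ := h
  let v : 𝔸ˣ := ⟨(Complex.exp (s * t) / (2 * s)) • (u : 𝔸), (2 * s / Complex.exp (s * t)) • ((u⁻¹ : 𝔸ˣ) : 𝔸),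
    by rw [smul_mul_smul_comm, Units.mul_inv,
      show Complex.exp (s * t) / (2 * s) * (2 * s / Complex.exp (s * t)) = 1 by field_simp, one_smul],
    by rw [smul_mul_smul_comm, Units.inv_mul,
      show 2 * s / Complex.exp (s * t) * (Complex.exp (s * t) / (2 * s)) = 1 by field_simp, one_smul]⟩
  have hv : P.S s t = v := by rw [P.S_eq hs t, ← hu]
  rw [hv, ← hu]
  exact ⟨v.isUnit, by rw [Ring.inverse_unit, Ring.inverse_unit]; rfl⟩

/-- Both combinations are close to the amplitude. -/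
theorem close_amp {T C : ℝ} (hE : P.Est T C) {s : ℂ} (hs : 1 ≤ s.re) {t : ℝ} (ht : t ∈ Icc 0 T) :
    ‖(P.uPart s t - P.wPart s t) - P.amp t‖ ≤ 2 * C / s.re + Real.exp (-(2 * s.re * t)) ∧
      ‖(P.uPart s t + P.wPart s t) - P.amp t‖ ≤ 2 * C / s.re + Real.exp (-(2 * s.re * t)) := by
  obtain ⟨h1, h2⟩ := hE.large s hs t ht
  have h3 : ‖P.wPart s t‖ ≤ C / s.re + Real.exp (-(2 * s.re * t)) := by
    have h := norm_le_norm_add_norm_sub' (P.wPart s t) (Complex.exp (-(2 * s) * t) • (1 : 𝔸))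
    rw [norm_smul, norm_exp_mul, CStarRing.norm_one, mul_one] at h
    simp at h
    simp at h2
    linarith
  refine ⟨?_, ?_⟩
  · rw [show P.uPart s t - P.wPart s t - P.amp t = (P.uPart s t - P.amp t) - P.wPart s t by abel]
    exact (norm_sub_le _ _).trans (by rw [mul_div_assoc]; linarith)
  · rw [show P.uPart s t + P.wPart s t - P.amp t = (P.uPart s t - P.amp t) + P.wPart s t by abel]
    exact (norm_add_le _ _).trans (by rw [mul_div_assoc]; linarith)

/-- Away from the origin the reduced solution is invertible. -/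
theorem unit_far {T C : ℝ} (hE : P.Est T C) {s : ℂ} (hs : 1 ≤ s.re) {t : ℝ} (ht : t ∈ Icc 0 T)
    (ht0 : 0 < t) (hlow : 4 * C * C + C / t ≤ s.re) :
    IsUnit (P.uPart s t - P.wPart s t) ∧
      ‖Ring.inverse (P.uPart s t - P.wPart s t)‖ ≤ 2 * C := by
  have hC := hE.nonneg
  have hξ : (0:ℝ) < s.re := one_pos.trans_le hs
  have he : Real.exp (-(2 * s.re * t)) ≤ 1 / (2 * t) / s.re :=
    (exp_neg_le_inv (by positivity)).trans (le_of_eq (by field_simp))
  have hk : ‖P.uPart s t - P.wPart s t - P.amp t‖ * ‖P.ampInv t‖ ≤ 1 / 2 := by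
    refine (mul_le_mul (((P.close_amp hE hs ht).1).trans (add_le_add le_rfl he)) (hE.inv t ht) (norm_nonneg _)
      (by positivity)).trans ?_
    rw [← add_div, div_mul_eq_mul_div, div_le_iff₀ hξ]
    have : (2 * C + 1 / (2 * t)) * C = (4 * C * C + C / t) / 2 := by field_simp; ring
    linarith
  obtain ⟨h1, h2⟩ := isUnit_of_near (P.amp_mul_ampInv t) (P.ampInv_mul t) hk
  exact ⟨h1, h2.trans (by linarith [hE.inv t ht])⟩

/-- Near the origin the solution is invertible for real parameters. -/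
theorem unit_near {T C x t : ℝ} (hE : P.Est T C) (hx : 1 ≤ x) (hxC : 4 * C ≤ x) (ht : t ∈ Ioc 0 T)
    (htC : 8 * C * t ≤ 1) : IsUnit (P.uPart x t - P.wPart x t) := by
  have hC := hE.nonneg
  obtain ⟨h1, h2⟩ := hE.small x (by simpa using hx) t ⟨ht.1.le, ht.2⟩
  set c := 1 - Real.exp (-(2 * x * t)) with hc
  have hxt : 0 < 2 * x * t := mul_pos (by linarith) ht.1
  have he : (Complex.exp (-(2 * (x : ℂ)) * t)) • (1 : 𝔸) = ((1 - c : ℝ) : ℂ) • (1 : 𝔸) := by
    congr 1; simp [c]
  rw [he] at h2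
  have hd : ‖(P.uPart x t - P.wPart x t) - ((c : ℝ) : ℂ) • (1 : 𝔸)‖ ≤ 2 * C * t := by
    rw [show P.uPart x t - P.wPart x t - ((c : ℝ) : ℂ) • (1 : 𝔸) =
      (P.uPart x t - 1) - (P.wPart x t - ((1 - c : ℝ) : ℂ) • (1 : 𝔸)) by push_cast; module]
    exact (norm_sub_le _ _).trans (by linarith)
  have hcl : 2 * x * t / (1 + 2 * x * t) ≤ c := by
    have h := Real.add_one_le_exp (2 * x * t)
    rw [hc, Real.exp_neg]
    have : (Real.exp (2 * x * t))⁻¹ ≤ (1 + 2 * x * t)⁻¹ := inv_anti₀ (by positivity) (by linarith)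
    have e : 2 * x * t / (1 + 2 * x * t) = 1 - (1 + 2 * x * t)⁻¹ := by field_simp; ring
    linarith
  have hkey : 4 * C * t ≤ c := by
    refine le_trans ?_ hcl
    rw [le_div_iff₀ (by positivity)]
    nlinarith [mul_nonneg (sub_nonneg.2 hxC) ht.1.le,
      mul_nonneg (sub_nonneg.2 htC) (mul_nonneg (by linarith : (0:ℝ) ≤ x) ht.1.le)]
  have hc0 : 0 < c := lt_of_lt_of_le (by positivity) hcl
  have hcC : ((c : ℝ) : ℂ) ≠ 0 := Complex.ofReal_ne_zero.2 hc0.ne'
  refine (isUnit_of_near (x := ((c : ℝ) : ℂ) • (1 : 𝔸)) (v := ((c : ℝ) : ℂ)⁻¹ • (1 : 𝔸))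
    (by rw [smul_mul_smul_comm, mul_inv_cancel₀ hcC, one_mul, one_smul])
    (by rw [smul_mul_smul_comm, inv_mul_cancel₀ hcC, one_mul, one_smul]) ?_).1
  rw [norm_smul, CStarRing.norm_one, mul_one, norm_inv, Complex.norm_real, Real.norm_eq_abs,
    abs_of_pos hc0, ← div_eq_mul_inv, div_le_iff₀ hc0]
  linarith

theorem exists_growth {T : ℝ} (hT : 0 < T) : ∃ R C, P.Growth T R C := by
  obtain ⟨C, hE⟩ := P.exists_est hT.le
  have hC := hE.nonneg
  set R := 1 + 4 * C + 4 * C * C + C / T + 8 * C * C with hR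
  have hd : 0 ≤ C / T := by positivity
  have hR1 : 1 ≤ R := by nlinarith
  set D := 4 * C + 1 + 8 * C * C + 2 * C / T with hD
  have hD0 : 4 * C + 1 ≤ D := by
    have : 0 ≤ 2 * C / T := by positivity
    nlinarith
  have hne : ∀ s : ℂ, R ≤ s.re → s ≠ 0 := fun s hs h => by rw [h] at hs; simp at hs; linarith
  have hfarT : ∀ s : ℂ, R ≤ s.re → IsUnit (P.uPart s T - P.wPart s T) ∧
      ‖Ring.inverse (P.uPart s T - P.wPart s T)‖ ≤ 2 * C := fun s hs =>
    P.unit_far hE (hR1.trans hs) (right_mem_Icc.2 hT.le) hT (by nlinarith)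
  refine ⟨R, D, ⟨hR1, by linarith, fun s hs t ht => ?_, fun s hs => ?_, fun x hx t ht => ?_, fun x hx => ?_⟩⟩
  · have hξ : (0:ℝ) < s.re := by linarith
    have hb1 : 2 * C / s.re ≤ 2 * C := div_le_self (by positivity) (by linarith)
    have hb2 : Real.exp (-(2 * s.re * t)) ≤ 1 := Real.exp_le_one_iff.2 (by nlinarith [ht.1])
    obtain ⟨c1, c2⟩ := P.close_amp hE (hR1.trans hs) ht
    have n1 : ‖P.uPart s t - P.wPart s t‖ ≤ D := by
      linarith [norm_le_norm_add_norm_sub' (P.uPart s t - P.wPart s t) (P.amp t), hE.amp t ht]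
    have n2 : ‖P.uPart s t + P.wPart s t‖ ≤ D := by
      linarith [norm_le_norm_add_norm_sub' (P.uPart s t + P.wPart s t) (P.amp t), hE.amp t ht]
    have hsn : 0 < ‖s‖ := hξ.trans_le (Complex.re_le_norm s)
    refine ⟨?_, ?_⟩
    · rw [P.S_eq (hne s hs) t, norm_smul, norm_div, norm_exp_mul, norm_mul, Complex.norm_ofNat,
        div_mul_eq_mul_div]
      refine (div_le_div_of_nonneg_right (mul_le_mul_of_nonneg_left n1 (Real.exp_pos _).le)
        (by positivity)).trans ?_
      rw [mul_comm (Real.exp _) D]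
      exact div_le_div_of_nonneg_left (mul_nonneg (by linarith) (Real.exp_pos _).le) hsn (by linarith)
    · rw [P.S'_eq s t, norm_smul, norm_div, norm_exp_mul, Complex.norm_ofNat, mul_comm D]
      exact mul_le_mul (by linarith [Real.exp_pos (s.re * t)]) n2 (norm_nonneg _) (Real.exp_pos _).le
  · obtain ⟨h1, h2⟩ := hfarT s hs
    obtain ⟨g1, g2⟩ := P.inverse_S (hne s hs) h1
    refine ⟨g1, ?_⟩
    rw [g2, norm_smul, norm_div, norm_exp_mul, norm_mul, Complex.norm_ofNat, Real.exp_neg, div_eq_mul_inv]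
    refine (mul_le_mul_of_nonneg_left h2 (by positivity)).trans ?_
    have e : 0 ≤ ‖s‖ * (Real.exp (s.re * T))⁻¹ := by positivity
    nlinarith [mul_le_mul_of_nonneg_right (show 4 * C ≤ D by linarith) e]
  · refine (P.inverse_S (hne _ (by simpa using hx)) ?_).1
    by_cases htC : 8 * C * t ≤ 1
    · exact P.unit_near hE (hR1.trans hx) (by nlinarith) ht htC
    · refine (P.unit_far hE (by simpa using hR1.trans hx) ⟨ht.1.le, ht.2⟩ ht.1 ?_).1
      have : C / t ≤ 8 * C * C := by
        rw [div_le_iff₀ ht.1]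
        nlinarith [mul_nonneg hC (sub_nonneg.2 (not_le.1 htC).le)]
      rw [Complex.ofReal_re]
      linarith
  · have hs : R ≤ ((x : ℂ)).re := by simpa using hx
    obtain ⟨h1, h2⟩ := hfarT _ hs
    have hx0 : (x : ℂ) ≠ 0 := hne _ hs
    have e : (x : ℂ)⁻¹ • (P.S' x T * Ring.inverse (P.S x T)) - 1 =
        ((P.uPart x T + P.wPart x T) - (P.uPart x T - P.wPart x T)) *
          Ring.inverse (P.uPart x T - P.wPart x T) := by
      rw [(P.inverse_S hx0 h1).2, P.S'_eq x T, smul_mul_smul_comm, smul_smul, sub_mul,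
        Ring.mul_inverse_cancel _ h1,
        show (x : ℂ)⁻¹ * (Complex.exp (x * T) / 2 * (2 * x / Complex.exp (x * T))) = 1 by field_simp,
        one_smul]
    rw [e]
    obtain ⟨c1, c2⟩ := P.close_amp hE (hR1.trans hs) (right_mem_Icc.2 hT.le)
    simp only [Complex.ofReal_re] at c1 c2
    have hx1 : (0:ℝ) < x := by linarith
    have hexp2 : Real.exp (-(2 * x * T)) ≤ 1 / (2 * T) / x :=
      (exp_neg_le_inv (by positivity)).trans (le_of_eq (by field_simp))
    have hn : ‖P.uPart x T + P.wPart x T - (P.uPart x T - P.wPart x T)‖ ≤ (4 * C + 1 / T) / x := by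
      refine (norm_sub_le_norm_sub_add_norm_sub _ (P.amp T) _).trans ?_
      rw [norm_sub_rev (P.amp T)]
      have e1 : (4 * C + 1 / T) / x = 2 * (2 * C / x) + 2 * (1 / (2 * T) / x) := by field_simp; ring
      linarith
    refine (norm_mul_le _ _).trans ((mul_le_mul hn h2 (norm_nonneg _) (by positivity)).trans ?_)
    rw [div_mul_eq_mul_div]
    refine div_le_div_of_nonneg_right ?_ hx1.le
    have : (4 * C + 1 / T) * (2 * C) = 8 * C * C + 2 * C / T := by ring
    linarith

end Pot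

end

end Vale.Agent.P088
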