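import Mathlib

/-!
# P088: two facts about entire functions
-/

open MeasureTheory Set Filter Complex Bornology Asymptotics
open scoped Topology

namespace Vale.Agent.P088

noncomputable section

variable {F : Type*} [NormedAddCommGroup F] [NormedSpace ℂ F] [CompleteSpace F]

theorem one_div_prod_le {a : ℕ → ℝ} (ha : ∀ j, 0 ≤ a j) :
    ∀ m, ∏ j ∈ Finset.range m, 1 / (1 + a j) ≤ 1 / (1 + ∑ j ∈ Finset.range m, a j)
  | 0 => by simp
  | m + 1 => by
    rw [Finset.prod_range_succ, Finset.sum_range_succ]
    have hs : 0 ≤ ∑ j ∈ Finset.range m, a j := Finset.sum_nonneg fun j _ => ha j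
    refine (mul_le_mul_of_nonneg_right (one_div_prod_le ha m)
      (div_nonneg zero_le_one (by linarith [ha m]))).trans ?_
    rw [div_mul_div_comm, one_mul]
    exact one_div_le_one_div_of_le (by linarith [ha m]) (by nlinarith [mul_nonneg hs (ha m)])

/-- An entire function bounded on the right half-plane and vanishing at the positive integers is zero. -/
theorem eq_zero_of_nat_zeros_aux {g : ℂ → F} (hg : Differentiable ℂ g) {C : ℝ}
    (hb : ∀ z : ℂ, 0 ≤ z.re → ‖g z‖ ≤ C) (hz : ∀ n : ℕ, g ((n : ℂ) + 1) = 0) : ∀ z, g z = 0 := by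
  have hC : 0 ≤ C := (norm_nonneg _).trans (hb 0 le_rfl)
  have step : ∀ m : ℕ, ∃ h : ℂ → F, Differentiable ℂ h ∧ (∀ z : ℂ, 0 ≤ z.re → ‖h z‖ ≤ C) ∧
      (∀ n : ℕ, m ≤ n → h ((n : ℂ) + 1) = 0) ∧
      ∀ x : ℝ, 0 ≤ x → x < 1 →
        ‖g x‖ ≤ (∏ j ∈ Finset.range m, ((j + 1 - x) / (j + 1 + x))) * ‖h x‖ := by
    intro m
    induction m with
    | zero => exact ⟨g, hg, hb, fun n _ => hz n, fun x _ _ => by simp⟩
    | succ m ih =>
      obtain ⟨h, hd, hhb, hhz, hhx⟩ := ih
      set a : ℂ := (m : ℂ) + 1 with ha
      set d : ℂ → F := dslope h a with hdd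
      set h' : ℂ → F := (fun z => (-(z + a)) • d z) with hh'
      have hdiff : Differentiable ℂ d := by
        rw [← differentiableOn_univ]
        exact (Complex.differentiableOn_dslope univ_mem).2 hd.differentiableOn
      have hd' : Differentiable ℂ h' := ((differentiable_id.add_const a).fun_neg).smul hdiff
      have hda : h a = 0 := hhz m le_rfl
      have heq : ∀ z, (z - a) • d z = h z := fun z => by
        rw [hdd, sub_smul_dslope, hda, sub_zero]
      have hsa : ∀ z, z ≠ a → ‖h' z‖ = ‖z + a‖ / ‖z - a‖ * ‖h z‖ := fun z hz => by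
        have : ‖z - a‖ ≠ 0 := norm_ne_zero_iff.2 (sub_ne_zero.2 hz)
        rw [← heq z]
        simp only [h', norm_smul, norm_neg]
        field_simp
      have are : a.re = m + 1 := by simp [a]
      have aim : a.im = 0 := by simp [a]
      have han : ‖a‖ = m + 1 := by
        rw [ha, show ((m : ℂ) + 1) = ((m + 1 : ℕ) : ℂ) by push_cast; ring, Complex.norm_natCast]; push_cast; ring
      refine ⟨h', hd', fun z hz0 => ?_, fun n hn => ?_, fun x hx0 hx1 => ?_⟩
      · obtain ⟨M, hM⟩ := (isCompact_closedBall a 1).exists_bound_of_continuousOn hd'.continuous.continuousOn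
        refine PhragmenLindelof.right_half_plane_of_bounded_on_real hd'.diffContOnCl
          ⟨1, by norm_num, 0, ?_⟩ ?_ ?_ hz0
        · refine IsBigO.of_bound (max M ((1 + 2 * (m + 1)) * C)) ?_
          rw [eventually_inf_principal]
          refine Eventually.of_forall fun w hw => ?_
          simp only [zero_mul, Real.exp_zero, norm_one, mul_one]
          by_cases hwa : w ∈ Metric.closedBall a 1
          · exact (hM w hwa).trans (le_max_left _ _)
          · refine le_trans ?_ (le_max_right _ _)
            rw [Metric.mem_closedBall, dist_eq_norm, not_le] at hwa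
            have hne : w ≠ a := fun e => by rw [e, sub_self, norm_zero] at hwa; linarith
            rw [hsa w hne]
            refine mul_le_mul ?_ (hhb w (le_of_lt hw)) (norm_nonneg _) (by positivity)
            rw [div_le_iff₀ (by linarith)]
            have h2 : ‖w + a‖ ≤ ‖w - a‖ + 2 * ‖a‖ := by
              calc ‖w + a‖ = ‖(w - a) + (2 : ℂ) * a‖ := by ring_nf
                _ ≤ _ := (norm_add_le _ _).trans (by simp)
            rw [han] at h2
            nlinarith
        · refine ⟨max M ((1 + 2 * (m + 1)) * C), ?_⟩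
          rw [Filter.eventually_map]
          filter_upwards [eventually_ge_atTop (0:ℝ)] with x hx
          by_cases hwa : (x : ℂ) ∈ Metric.closedBall a 1
          · exact (hM _ hwa).trans (le_max_left _ _)
          · refine le_trans ?_ (le_max_right _ _)
            rw [Metric.mem_closedBall, dist_eq_norm, not_le] at hwa
            have hne : (x : ℂ) ≠ a := fun e => by rw [e, sub_self, norm_zero] at hwa; linarith
            rw [hsa _ hne]
            refine mul_le_mul ?_ (hhb _ (by simpa using hx)) (norm_nonneg _) (by positivity)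
            rw [div_le_iff₀ (by linarith)]
            have h2 : ‖(x : ℂ) + a‖ ≤ ‖(x : ℂ) - a‖ + 2 * ‖a‖ := by
              calc ‖(x : ℂ) + a‖ = ‖((x : ℂ) - a) + (2 : ℂ) * a‖ := by ring_nf
                _ ≤ _ := (norm_add_le _ _).trans (by simp)
            rw [han] at h2
            nlinarith
        · intro y
          have hne : (y : ℂ) * I ≠ a := fun e => by
            have := congrArg Complex.re e; rw [are] at this; simp at this; linarith
          have he : ‖(y : ℂ) * I + a‖ = ‖(y : ℂ) * I - a‖ := by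
            simp only [Complex.norm_def, Complex.normSq_apply]
            simp [are, aim]
            ring_nf
          rw [hsa _ hne, he, div_self (norm_ne_zero_iff.2 (sub_ne_zero.2 hne)), one_mul]
          exact hhb _ (by simp)
      · have hne : (n : ℂ) + 1 ≠ a := by
          rw [ha]; intro e
          have : n = m := by exact_mod_cast add_right_cancel e
          omega
        have := hsa _ hne
        rw [hhz n (by omega), norm_zero, mul_zero, norm_eq_zero] at this
        exact this
      · refine (hhx x hx0 hx1).trans (le_of_eq ?_)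
        rw [Finset.prod_range_succ, mul_assoc]
        congr 1
        have hne : (x : ℂ) ≠ a := fun e => by
          have := congrArg Complex.re e; rw [are] at this; simp at this
          linarith [Nat.cast_nonneg (α := ℝ) m]
        have hm : (0:ℝ) ≤ m := m.cast_nonneg
        rw [hsa _ hne, ha, show (x : ℂ) + ((m : ℂ) + 1) = ((x + (m + 1) : ℝ) : ℂ) by push_cast; ring,
          show (x : ℂ) - ((m : ℂ) + 1) = ((x - (m + 1) : ℝ) : ℂ) by push_cast; ring,
          Complex.norm_real, Complex.norm_real, Real.norm_eq_abs, Real.norm_eq_abs,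
          abs_of_pos (by linarith : (0:ℝ) < x + (m + 1)), abs_of_neg (by linarith : x - (m + 1) < (0:ℝ))]
        obtain ⟨k, hk, hk'⟩ : ∃ k, 0 < k ∧ (m : ℝ) + 1 - x = k :=
          ⟨_, by linarith, rfl⟩
        rw [show -(x - ((m : ℝ) + 1)) = k by linarith, hk', show (m : ℝ) + 1 + x = x + (m + 1) by ring]
        have : 0 < x + ((m : ℝ) + 1) := by linarith
        field_simp
  have hx : ∀ x ∈ Ioo (0:ℝ) 1, g x = 0 := by
    intro x hx
    have hb' : ∀ m : ℕ, ‖g x‖ ≤ C / (1 + x * ∑ j ∈ Finset.range m, 1 / ((j : ℝ) + 1)) := by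
      intro m
      obtain ⟨h, _, hhb, _, hhx⟩ := step m
      refine (hhx x hx.1.le hx.2).trans ?_
      rw [div_eq_mul_one_div, mul_comm C, Finset.mul_sum]
      refine mul_le_mul ?_ (hhb x (by simpa using hx.1.le)) (norm_nonneg _)
        (div_nonneg zero_le_one (add_nonneg zero_le_one (Finset.sum_nonneg fun j _ =>
          mul_nonneg hx.1.le (by positivity))))
      refine (Finset.prod_le_prod (fun j _ => ?_) (fun j _ => ?_)).trans
        (one_div_prod_le (a := fun j => x * (1 / ((j : ℝ) + 1))) (fun j => mul_nonneg hx.1.le (by positivity)) m)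
      · exact div_nonneg (by linarith [hx.2, Nat.cast_nonneg (α := ℝ) j]) (by linarith [hx.1, Nat.cast_nonneg (α := ℝ) j])
      · have hj : (0:ℝ) ≤ j := j.cast_nonneg
        rw [div_le_div_iff₀ (by linarith [hx.1]) (by have := hx.1; positivity)]
        field_simp
        nlinarith [sq_nonneg x, hx.1, hx.2]
    have ht : Tendsto (fun m => C / (1 + x * ∑ j ∈ Finset.range m, 1 / ((j : ℝ) + 1))) atTop (𝓝 0) :=
      tendsto_const_nhds.div_atTop (tendsto_atTop_add_const_left _ _
        (Real.tendsto_sum_range_one_div_nat_succ_atTop.const_mul_atTop hx.1))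
    exact norm_le_zero_iff.1 (ge_of_tendsto' ht hb')
  have hfr : ∃ᶠ z in 𝓝[≠] ((1 / 2 : ℝ) : ℂ), g z = (fun _ : ℂ => (0 : F)) z := by
    have ht : Tendsto (fun n : ℕ => ((1 / 2 + 1 / ((n : ℝ) + 3) : ℝ) : ℂ)) atTop (𝓝[≠] ((1 / 2 : ℝ) : ℂ)) := by
      refine tendsto_nhdsWithin_iff.2 ⟨(Complex.continuous_ofReal.tendsto _).comp ?_, Eventually.of_forall fun n => ?_⟩
      · have := (tendsto_one_div_add_atTop_nhds_zero_nat.comp (tendsto_add_atTop_nat 2)).const_add (1 / 2 : ℝ)
        simp only [add_zero] at this
        refine this.congr fun n => ?_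
        simp only [Function.comp_apply]; push_cast; ring_nf
      · simp only [mem_compl_iff, mem_singleton_iff, Complex.ofReal_inj]
        have : (0:ℝ) < 1 / ((n : ℝ) + 3) := by positivity
        linarith
    refine ht.frequently (Frequently.of_forall fun n => hx _ ⟨by positivity, ?_⟩)
    have : 1 / ((n : ℝ) + 3) ≤ 1 / 3 := one_div_le_one_div_of_le (by norm_num) (by linarith [Nat.cast_nonneg (α := ℝ) n])
    linarith
  exact congrFun (AnalyticOnNhd.eq_of_frequently_eq (fun z _ => hg.analyticAt z) analyticOnNhd_const hfr)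

/-- An entire function bounded on some right half-plane and vanishing at all large integers is zero. -/
theorem eq_zero_of_nat_zeros {f : ℂ → F} (hf : Differentiable ℂ f) {R C : ℝ}
    (hb : ∀ z : ℂ, R ≤ z.re → ‖f z‖ ≤ C) (hz : ∀ᶠ n : ℕ in atTop, f n = 0) : ∀ z, f z = 0 := by
  obtain ⟨N, hN⟩ := eventually_atTop.1 hz
  obtain ⟨M, hNM, hRM⟩ : ∃ M : ℕ, N ≤ M ∧ R ≤ M := ⟨max N ⌈R⌉₊, le_max_left _ _,
    (Nat.le_ceil R).trans (by exact_mod_cast le_max_right _ _)⟩
  have h := eq_zero_of_nat_zeros_aux (g := fun z => f (z + (M : ℂ))) (hf.comp (differentiable_id.add_const _))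
    (C := C) (fun z hz => hb _ (by simp; linarith)) fun n => by
      have := hN (n + 1 + M) (by omega)
      simpa using this
  intro z
  simpa using h (z - (M : ℂ))

/-- An entire function decaying on both sides of a strip, and of moderate growth in it, is zero. -/
theorem eq_zero_of_strip {f : ℂ → F} (hf : Differentiable ℂ f) {R C c : ℝ} (hR : 1 ≤ R)
    (hside : ∀ z : ℂ, R ≤ |z.re| → ‖f z‖ ≤ C / ‖z‖) (hgrow : ∀ z : ℂ, ‖f z‖ ≤ Real.exp (c * (1 + ‖z‖) ^ 2)) :
    ∀ z, f z = 0 := by
  have hC : 0 ≤ C := by
    have h := hside (R : ℂ) (by simp [abs_of_nonneg (zero_le_one.trans hR)])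
    rw [Complex.norm_real, Real.norm_eq_abs, abs_of_pos (by linarith : (0:ℝ) < R)] at h
    have := (norm_nonneg _).trans h
    rw [le_div_iff₀ (by linarith)] at this
    linarith
  have hout : ∀ z : ℂ, R ≤ |z.re| → ‖f z‖ ≤ C := fun z hz => (hside z hz).trans
    (div_le_self hC ((hR.trans hz).trans (Complex.abs_re_le_norm z)))
  have hall : ∀ z, ‖f z‖ ≤ C := by
    intro z
    by_cases hzR : R ≤ |z.re|
    · exact hout z hzR
    · rw [not_le, abs_lt] at hzR
      set a : ℝ := 1 / R with ha
      have ha0 : 0 < a := by positivity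
      refine PhragmenLindelof.vertical_strip (a := -R) (b := R) hf.diffContOnCl
        ⟨a, ?_, |c| * 64 * R ^ 2, ?_⟩ (fun w hw => hout w (by rw [hw, abs_neg, abs_of_pos (by linarith)]))
        (fun w hw => hout w (by rw [hw, abs_of_pos (by linarith)])) hzR.1.le hzR.2.le
      · rw [ha, div_lt_div_iff₀ (by linarith) (by linarith)]
        nlinarith [Real.pi_gt_three]
      · refine IsBigO.of_bound 1 ?_
        rw [eventually_inf_principal]
        refine Eventually.of_forall fun w hw => ?_
        rw [one_mul, Real.norm_eq_abs, abs_of_pos (Real.exp_pos _)]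
        refine (hgrow w).trans (Real.exp_le_exp.2 ?_)
        have h1 : ‖w‖ ≤ R + |w.im| := (Complex.norm_le_abs_re_add_abs_im w).trans
          (by gcongr; exact abs_le.2 ⟨hw.1.le, hw.2.le⟩)
        have h2 := Real.quadratic_le_exp_of_nonneg (mul_nonneg ha0.le (abs_nonneg w.im))
        have h3 : (1 + ‖w‖) ^ 2 ≤ (2 * R + |w.im|) ^ 2 := pow_le_pow_left₀ (by positivity) (by linarith) 2
        have h4 : (2 * R + |w.im|) ^ 2 ≤ 64 * R ^ 2 * Real.exp (a * |w.im|) := by
          have e : |w.im| = R * (a * |w.im|) := by rw [ha]; field_simp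
          set u := a * |w.im|
          have hu : 0 ≤ u := by positivity
          rw [e]
          nlinarith [mul_nonneg (sq_nonneg R) hu, mul_nonneg (sq_nonneg R) (sub_nonneg.2 h2),
            mul_nonneg (sq_nonneg R) (sq_nonneg u)]
        have h5 : c * (1 + ‖w‖) ^ 2 ≤ |c| * (64 * R ^ 2 * Real.exp (a * |w.im|)) :=
          (mul_le_mul_of_nonneg_right (le_abs_self c) (sq_nonneg _)).trans
            (mul_le_mul_of_nonneg_left (h3.trans h4) (abs_nonneg c))
        linarith
  obtain ⟨k, hk⟩ := hf.exists_const_forall_eq_of_bounded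
    (isBounded_iff_forall_norm_le.2 ⟨C, fun y ⟨z, hz⟩ => hz ▸ hall z⟩)
  have hk0 : k = 0 := by
    have ht : Tendsto (fun x : ℝ => C / x) atTop (𝓝 0) := tendsto_const_nhds.div_atTop tendsto_id
    refine norm_le_zero_iff.1 (ge_of_tendsto ht ?_)
    filter_upwards [eventually_ge_atTop R] with x hx
    have := hside (x : ℂ) (by simpa using hx.trans (le_abs_self x))
    rwa [hk, Complex.norm_real, Real.norm_eq_abs, abs_of_pos (by linarith)] at this
  exact fun z => (hk z).trans hk0

end

end Vale.Agent.P088
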