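import Mathlib
import Vale.Agent.P088.Core.Asymptotic
import Vale.Agent.P088.Core.HalfPlane

/-!
# P088: the one-end response determines the pencil
-/

open MeasureTheory Set Filter
open scoped Topology

namespace Vale.Agent.P088

noncomputable section

variable {𝔸 : Type*} [CStarAlgebra 𝔸]

theorem differentiable_star_star {f : ℂ → 𝔸} (hf : Differentiable ℂ f) :
    Differentiable ℂ fun s => star (f (star s)) := by
  intro s
  have h := hasDerivAt_iff_tendsto_slope.1 (hf (star s)).hasDerivAt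
  refine (hasDerivAt_iff_tendsto_slope.2 ?_ : HasDerivAt _ (star (deriv f (star s))) s).differentiableAt
  have hm : Tendsto (fun z : ℂ => star z) (𝓝[≠] s) (𝓝[≠] star s) :=
    tendsto_nhdsWithin_iff.2 ⟨(continuous_star.tendsto s).mono_left nhdsWithin_le_nhds, by
      filter_upwards [self_mem_nhdsWithin] with z hz
      exact fun e => hz (star_injective e)⟩
  refine ((continuous_star.tendsto _).comp (h.comp hm)).congr fun z => ?_
  simp [slope_def_module, star_smul]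

namespace Pot

variable {P P₁ P₂ : Pot 𝔸} {h h₁ h₂ : 𝔸} {T T₁ T₂ : ℝ}

theorem S_flip (P : Pot 𝔸) (s : ℂ) : P.flip.S s = P.S (-s) ∧ P.flip.S' s = P.S' (-s) :=
  IsSol.unique P (P.flip.isSol_S s).of_flip (P.isSol_S (-s)) (by simp [S_zero]) (by simp [S'_zero])

theorem C_flip (P : Pot 𝔸) (h : 𝔸) (s : ℂ) : P.flip.C h s = P.C h (-s) :=
  (IsSol.unique P (P.flip.isSol_C h s).of_flip (P.isSol_C h (-s)) (by simp [C_zero]) (by simp [C'_zero])).1

/-- The Wronskian of the two solutions vanishing at the far ends, at the observed end. -/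
def Om (P₁ P₂ : Pot 𝔸) (h₁ h₂ : 𝔸) (T₁ T₂ : ℝ) (s : ℂ) : 𝔸 :=
  star (P₁.W T₁ (star s)) * (h₂ * P₂.W T₂ s + P₂.W' T₂ s) -
    star (h₁ * P₁.W T₁ (star s) + P₁.W' T₁ (star s)) * P₂.W T₂ s

theorem Om_flip (s : ℂ) : Om P₁.flip P₂.flip h₁ h₂ T₁ T₂ s = Om P₁ P₂ h₁ h₂ T₁ T₂ (-s) := by
  have e : ∀ (P : Pot 𝔸) (T : ℝ) (z : ℂ), P.flip.W T z = P.W T (-z) ∧ P.flip.W' T z = P.W' T (-z) :=
    fun P T z => ⟨congrFun ((P.rev T).S_flip z).1 T, congrFun ((P.rev T).S_flip z).2 T⟩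
  simp [Om, e]

theorem Om_swap (s : ℂ) : Om P₂ P₁ h₂ h₁ T₂ T₁ s = -star (Om P₁ P₂ h₁ h₂ T₁ T₂ (star s)) := by
  simp [Om, star_sub, star_mul]

theorem differentiable_Om : Differentiable ℂ (Om P₁ P₂ h₁ h₂ T₁ T₂) :=
  ((differentiable_star_star (P₁.differentiable_W T₁)).mul
      (((P₂.differentiable_W T₂).const_mul h₂).add (P₂.differentiable_W' T₂))).sub
    ((differentiable_star_star (((P₁.differentiable_W T₁).const_mul h₁).add (P₁.differentiable_W' T₁))).mul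
      (P₂.differentiable_W T₂))

theorem Om_self (hh : star h = h) (s : ℂ) : Om P P h h T T s = 0 := by
  have hL := ((P.rev T).isSol_S (star s)).lagrange ((P.rev T).isSol_S s) T
  simp only [S_zero, S'_zero, star_zero, zero_mul, mul_zero, sub_zero] at hL
  simp only [Om, W, W', star_add, star_mul, hh, mul_add, add_mul, mul_assoc]
  rw [add_sub_add_left_eq_sub, hL]

variable [Nontrivial 𝔸]

theorem Om_eq_zero (hT₁ : 0 < T₁) (hT₂ : 0 < T₂)
    (hdata : ∀ᶠ n : ℕ in atTop, Om P₁ P₂ h₁ h₂ T₁ T₂ (n : ℂ) = 0) (s : ℂ) :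
    Om P₁ P₂ h₁ h₂ T₁ T₂ s = 0 := by
  obtain ⟨R₁, C₁, g₁⟩ := (P₁.rev T₁).exists_growth hT₁
  obtain ⟨R₂, C₂, g₂⟩ := (P₂.rev T₂).exists_growth hT₂
  set g : ℂ → 𝔸 := fun z => Complex.exp (-z * (T₁ + T₂ : ℝ)) • Om P₁ P₂ h₁ h₂ T₁ T₂ z with hg
  have hgd : Differentiable ℂ g :=
    (by fun_prop : Differentiable ℂ fun z : ℂ => Complex.exp (-z * (T₁ + T₂ : ℝ))).smul differentiable_Om
  have hg0 : ∀ z, g z = 0 := by
    refine eq_zero_of_nat_zeros hgd (R := max R₁ R₂)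
      (C := C₁ * (‖h₂‖ * C₂ + C₂) + (‖h₁‖ * C₁ + C₁) * C₂) (fun z hz => ?_) ?_
    · have hz1 : R₁ ≤ (star z).re := by simpa using le_trans (le_max_left _ _) hz
      have hz2 : R₂ ≤ z.re := le_trans (le_max_right _ _) hz
      have hz0 : 1 ≤ ‖z‖ := g₂.one_le.trans (hz2.trans (Complex.re_le_norm z))
      obtain ⟨a1, a2⟩ := g₁.bound (star z) hz1 T₁ (right_mem_Icc.2 hT₁.le)
      obtain ⟨b1, b2⟩ := g₂.bound z hz2 T₂ (right_mem_Icc.2 hT₂.le)
      have hn : ‖star z‖ = ‖z‖ := norm_star z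
      have hre : (star z).re = z.re := by simp
      rw [hn, hre] at a1; rw [hre] at a2
      have a1' := a1.trans (div_le_self (mul_nonneg g₁.nonneg (Real.exp_pos _).le) hz0)
      have b1' := b1.trans (div_le_self (mul_nonneg g₂.nonneg (Real.exp_pos _).le) hz0)
      have hp : ‖Om P₁ P₂ h₁ h₂ T₁ T₂ z‖ ≤
          (C₁ * (‖h₂‖ * C₂ + C₂) + (‖h₁‖ * C₁ + C₁) * C₂) *
            (Real.exp (z.re * T₁) * Real.exp (z.re * T₂)) := by
        refine (norm_sub_le _ _).trans ((add_le_add ((norm_mul_le _ _).trans ?_)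
          ((norm_mul_le _ _).trans ?_)).trans (le_of_eq (add_mul _ _ _).symm))
        · rw [norm_star]
          refine (mul_le_mul a1' ((norm_add_le _ _).trans (add_le_add ((norm_mul_le _ _).trans
            (mul_le_mul_of_nonneg_left b1' (norm_nonneg _))) b2)) (norm_nonneg _)
            (mul_nonneg g₁.nonneg (Real.exp_pos _).le)).trans (le_of_eq ?_)
          ring
        · rw [norm_star]
          refine (mul_le_mul ((norm_add_le _ _).trans (add_le_add ((norm_mul_le _ _).trans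
            (mul_le_mul_of_nonneg_left a1' (norm_nonneg _))) a2)) b1' (norm_nonneg _)
            (add_nonneg (mul_nonneg (norm_nonneg _) (mul_nonneg g₁.nonneg (Real.exp_pos _).le))
              (mul_nonneg g₁.nonneg (Real.exp_pos _).le))).trans (le_of_eq ?_)
          ring
      rw [norm_smul, norm_exp_mul]
      refine (mul_le_mul_of_nonneg_left hp (Real.exp_pos _).le).trans (le_of_eq ?_)
      have e : Real.exp ((-z).re * (T₁ + T₂)) * (Real.exp (z.re * T₁) * Real.exp (z.re * T₂)) = 1 := by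
        rw [← Real.exp_add, ← Real.exp_add, Complex.neg_re]; ring_nf; exact Real.exp_zero
      rw [mul_left_comm, e, mul_one]
    · filter_upwards [hdata] with n hn
      simp [g, hn]
  simpa [g, Complex.exp_ne_zero] using hg0 s

/-- The response at the observed end. -/
def resp (P : Pot 𝔸) (h : 𝔸) (T : ℝ) (s : ℂ) : 𝔸 := h + P.W' T s * Ring.inverse (P.W T s)

/-- The solution with value one at the observed end and zero at the far end. -/
def psi (P : Pot 𝔸) (T : ℝ) (s : ℂ) (t : ℝ) : 𝔸 := (P.rev T).S s (T - t) * Ring.inverse (P.W T s)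

omit [Nontrivial 𝔸] in
theorem psi_eq (P : Pot 𝔸) (h : 𝔸) {T : ℝ} {s : ℂ} (hu : IsUnit (P.W T s)) (t : ℝ) :
    psi P T s t = P.C h s t - P.S s t * resp P h T s := by
  have h1 := (P.isSol_end T s).mul_right (Ring.inverse (P.W T s))
  have h2 := (P.isSol_C h s).sub ((P.isSol_S s).mul_right (resp P h T s))
  refine congrFun (h1.unique P h2 ?_ ?_).1 t
  · simp only [sub_zero, C_zero, S_zero, zero_mul]
    exact Ring.mul_inverse_cancel _ hu
  · simp only [sub_zero, C'_zero, S'_zero, one_mul, resp, W']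
    rw [neg_mul]; abel

omit [Nontrivial 𝔸] in
theorem resp_eq {s : ℂ} (hΩ : Om P₁ P₂ h₁ h₂ T₁ T₂ s = 0) (hu₁ : IsUnit (P₁.W T₁ (star s)))
    (hu₂ : IsUnit (P₂.W T₂ s)) : resp P₂ h₂ T₂ s = star (resp P₁ h₁ T₁ (star s)) := by
  have e1 : resp P₂ h₂ T₂ s * P₂.W T₂ s = h₂ * P₂.W T₂ s + P₂.W' T₂ s := by
    rw [resp, add_mul, mul_assoc, Ring.inverse_mul_cancel _ hu₂, mul_one]
  have e2 : resp P₁ h₁ T₁ (star s) * P₁.W T₁ (star s) =
      h₁ * P₁.W T₁ (star s) + P₁.W' T₁ (star s) := by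
    rw [resp, add_mul, mul_assoc, Ring.inverse_mul_cancel _ hu₁, mul_one]
  rw [Om, ← e1, ← e2, star_mul, ← mul_assoc, sub_eq_zero] at hΩ
  exact hu₁.star.mul_left_cancel (hu₂.mul_right_cancel hΩ)

/-- The kernel whose vanishing compares the two pencils. -/
def kern (P₁ P₂ : Pot 𝔸) (h₁ h₂ : 𝔸) (t : ℝ) (s : ℂ) : 𝔸 :=
  P₁.S s t * star (P₂.C h₂ (star s) t) - P₁.C h₁ s t * star (P₂.S (star s) t)

theorem kern_bound (hT₁ : 0 < T₁) (hT₂ : 0 < T₂) (hΩ : ∀ s, Om P₁ P₂ h₁ h₂ T₁ T₂ s = 0) {t : ℝ}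
    (ht : t ∈ Ioc 0 (min T₁ T₂)) :
    ∃ R C, 1 ≤ R ∧ ∀ s : ℂ, R ≤ s.re → ‖kern P₁ P₂ h₁ h₂ t s‖ ≤ C / ‖s‖ := by
  obtain ⟨R₁, C₁, g₁⟩ := (P₁.rev T₁).exists_growth hT₁
  obtain ⟨R₂, C₂, g₂⟩ := (P₂.rev T₂).exists_growth hT₂
  obtain ⟨R₃, C₃, g₃⟩ := P₁.exists_growth ht.1
  obtain ⟨R₄, C₄, g₄⟩ := P₂.exists_growth ht.1
  refine ⟨max (max R₁ R₂) (max R₃ R₄), C₃ * (C₂ * C₂) + (C₁ * C₁) * C₄,
    g₁.one_le.trans ((le_max_left _ _).trans (le_max_left _ _)), fun s hs => ?_⟩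
  have r1 : R₁ ≤ s.re := ((le_max_left _ _).trans (le_max_left _ _)).trans hs
  have r2 : R₂ ≤ (star s).re := by simpa using ((le_max_right _ _).trans (le_max_left _ _)).trans hs
  have r3 : R₃ ≤ s.re := ((le_max_left _ _).trans (le_max_right _ _)).trans hs
  have r4 : R₄ ≤ (star s).re := by simpa using ((le_max_right _ _).trans (le_max_right _ _)).trans hs
  have hn : ‖star s‖ = ‖s‖ := norm_star s
  have hre : (star s).re = s.re := by simp
  have hs0 : 0 < ‖s‖ := lt_of_lt_of_le one_pos ((g₁.one_le.trans r1).trans (Complex.re_le_norm s))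
  have hu₁ := (g₁.unit s r1).1
  have hu₂ := (g₂.unit (star s) r2).1
  have hm := resp_eq (P₁ := P₂) (P₂ := P₁) (h₁ := h₂) (h₂ := h₁)
    (by rw [Om_swap, hΩ, star_zero, neg_zero]) hu₂ hu₁
  have hk : kern P₁ P₂ h₁ h₂ t s =
      P₁.S s t * star (psi P₂ T₂ (star s) t) - psi P₁ T₁ s t * star (P₂.S (star s) t) := by
    rw [psi_eq P₂ h₂ hu₂, psi_eq P₁ h₁ hu₁, hm, kern, star_sub, star_mul]
    noncomm_ring
  have hpsi : ∀ (P : Pot 𝔸) (T C R : ℝ) (z : ℂ), (P.rev T).Growth T R C → R ≤ z.re → 0 ≤ T - t →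
      0 < ‖z‖ → ‖psi P T z t‖ ≤ C * C * Real.exp (-(z.re * t)) := by
    intro P T C R z g hz hT hz0
    refine (norm_mul_le _ _).trans ((mul_le_mul (g.bound z hz (T - t) ⟨hT, by linarith [ht.1]⟩).1
      (g.unit z hz).2 (norm_nonneg _) (div_nonneg (mul_nonneg g.nonneg (Real.exp_pos _).le) hz0.le)).trans
      (le_of_eq ?_))
    rw [show -(z.re * t) = z.re * (T - t) + -(z.re * T) by ring, Real.exp_add]
    field_simp
  have p1 := hpsi P₁ T₁ C₁ R₁ s g₁ r1 (by linarith [ht.2, min_le_left T₁ T₂]) hs0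
  have p2 := hpsi P₂ T₂ C₂ R₂ (star s) g₂ r2 (by linarith [ht.2, min_le_right T₁ T₂]) (by rwa [hn])
  have s1 := (g₃.bound s r3 t (right_mem_Icc.2 ht.1.le)).1
  have s2 := (g₄.bound (star s) r4 t (right_mem_Icc.2 ht.1.le)).1
  rw [hn, hre] at s2
  rw [hre] at p2
  rw [hk]
  refine (norm_sub_le _ _).trans ((add_le_add ((norm_mul_le _ _).trans ?_)
    ((norm_mul_le _ _).trans ?_)).trans (le_of_eq (add_div _ _ _).symm))
  · rw [norm_star]
    refine (mul_le_mul s1 p2 (norm_nonneg _) (div_nonneg (mul_nonneg g₃.nonneg (Real.exp_pos _).le) hs0.le)).trans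
      (le_of_eq ?_)
    rw [Real.exp_neg]; field_simp
  · rw [norm_star]
    refine (mul_le_mul p1 s2 (norm_nonneg _) (mul_nonneg (mul_self_nonneg _) (Real.exp_pos _).le)).trans
      (le_of_eq ?_)
    rw [Real.exp_neg]; field_simp

theorem exists_sol_bound (P : Pot 𝔸) (a b : 𝔸) (t : ℝ) :
    ∃ c, 0 ≤ c ∧ ∀ s : ℂ, ‖P.Z (fun _ => a) (fun _ => b) s t‖ ≤ Real.exp (c * (1 + ‖s‖) ^ 2) := by
  obtain ⟨B, hB⟩ := (isCompact_Icc (a := -|t|) (b := |t|)).exists_bound_of_continuousOn P.contB.continuousOn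
  obtain ⟨D, hD⟩ := (isCompact_Icc (a := -|t|) (b := |t|)).exists_bound_of_continuousOn P.contD.continuousOn
  set K := 2 + max B 0 + max D 0 with hK
  have hK0 : 0 ≤ K := by positivity
  refine ⟨‖(a, b)‖ + K * |t|, by positivity, fun s => ?_⟩
  set L := K * (1 + ‖s‖) ^ 2 with hL
  have hop : ∀ r, |r| ≤ |t| → ‖P.sys.op s r‖ ≤ L := by
    intro r hr
    refine ContinuousLinearMap.opNorm_le_bound _ (by positivity) fun y => ?_
    rw [sys_op]
    have hq : ‖P.q s r‖ ≤ L := by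
      refine (norm_add₃_le).trans ?_
      rw [norm_smul, norm_smul, norm_pow, CStarRing.norm_one, mul_one]
      have h1 := (hB r (abs_le.1 hr)).trans (le_max_left B 0)
      have h2 := (hD r (abs_le.1 hr)).trans (le_max_left D 0)
      have hn := norm_nonneg s
      have h4 : 1 ≤ (1 + ‖s‖) ^ 2 := one_le_pow₀ (by linarith)
      nlinarith [mul_le_mul_of_nonneg_left h1 hn, le_max_right B 0, le_max_right D 0]
    have hL1 : 1 ≤ L := by
      rw [hL]; nlinarith [one_le_pow₀ (M₀ := ℝ) (by linarith [norm_nonneg s] : (1:ℝ) ≤ 1 + ‖s‖) (n := 2),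
        le_max_right B 0, le_max_right D 0]
    rw [Prod.norm_def]
    refine max_le ((norm_snd_le y).trans (le_mul_of_one_le_left (norm_nonneg _) hL1)) ?_
    exact (norm_mul_le _ _).trans (mul_le_mul hq (norm_fst_le y) (norm_nonneg _) (by positivity))
  refine (norm_fst_le _).trans ((norm_flow_le P.sys continuous_const (by positivity : 0 ≤ L) hop le_rfl).trans ?_)
  calc ‖(a, b)‖ * Real.exp (L * |t|) ≤ Real.exp ‖(a, b)‖ * Real.exp (L * |t|) :=
        mul_le_mul_of_nonneg_right (by linarith [Real.add_one_le_exp ‖(a, b)‖]) (Real.exp_pos _).le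
    _ ≤ _ := by
      rw [← Real.exp_add]
      refine Real.exp_le_exp.2 ?_
      rw [hL]
      have h1 : 1 ≤ (1 + ‖s‖) ^ 2 := one_le_pow₀ (by linarith [norm_nonneg s])
      nlinarith [mul_le_mul_of_nonneg_left h1 (norm_nonneg (a, b))]

theorem kern_eq_zero (hT₁ : 0 < T₁) (hT₂ : 0 < T₂) (hΩ : ∀ s, Om P₁ P₂ h₁ h₂ T₁ T₂ s = 0) {t : ℝ}
    (ht : t ∈ Ioc 0 (min T₁ T₂)) (s : ℂ) : kern P₁ P₂ h₁ h₂ t s = 0 := by
  obtain ⟨R, C, hR, hb⟩ := kern_bound hT₁ hT₂ hΩ ht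
  obtain ⟨R', C', hR', hb'⟩ := kern_bound (P₁ := P₁.flip) (P₂ := P₂.flip) (h₁ := h₁) (h₂ := h₂) hT₁ hT₂
    (fun z => by rw [Om_flip]; exact hΩ _) ht
  obtain ⟨c₁, hc₁, k₁⟩ := exists_sol_bound P₁ 0 1 t
  obtain ⟨c₂, hc₂, k₂⟩ := exists_sol_bound P₂ 1 h₂ t
  obtain ⟨c₃, hc₃, k₃⟩ := exists_sol_bound P₁ 1 h₁ t
  obtain ⟨c₄, hc₄, k₄⟩ := exists_sol_bound P₂ 0 1 t
  refine eq_zero_of_strip ((((P₁.differentiable_Z (differentiable_const _) (differentiable_const _) t).mul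
      (differentiable_star_star (P₂.differentiable_Z (differentiable_const _) (differentiable_const _) t))).sub
      ((P₁.differentiable_Z (differentiable_const _) (differentiable_const _) t).mul
      (differentiable_star_star (P₂.differentiable_Z (differentiable_const _) (differentiable_const _) t)))) :
      Differentiable ℂ (kern P₁ P₂ h₁ h₂ t)) (R := max R R') (C := max C C')
    (c := c₁ + c₂ + c₃ + c₄ + 1) (hR.trans (le_max_left _ _)) (fun z hz => ?_) (fun z => ?_) s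
  · rcases le_abs.1 hz with hz | hz
    · exact (hb z ((le_max_left _ _).trans hz)).trans
        (div_le_div_of_nonneg_right (le_max_left _ _) (norm_nonneg _))
    · have := hb' (-z) (by simpa using (le_max_right _ _).trans hz)
      rw [norm_neg] at this
      refine le_trans (le_of_eq ?_) (this.trans (div_le_div_of_nonneg_right (le_max_right _ _) (norm_nonneg _)))
      simp [kern, (S_flip _ _).1, C_flip]
      rfl
  · have hn : ‖star z‖ = ‖z‖ := norm_star z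
    have a1 := mul_le_mul (k₁ z) (le_of_eq_of_le (norm_star _) (k₂ (star z))) (norm_nonneg _) (Real.exp_pos _).le
    have a2 := mul_le_mul (k₃ z) (le_of_eq_of_le (norm_star _) (k₄ (star z))) (norm_nonneg _) (Real.exp_pos _).le
    refine (norm_sub_le _ _).trans ((add_le_add ((norm_mul_le _ _).trans a1) ((norm_mul_le _ _).trans a2)).trans ?_)
    · rw [hn, ← Real.exp_add, ← Real.exp_add, ← add_mul, ← add_mul]
      set Z := (1 + ‖z‖) ^ 2 with hZ
      have h1 : 1 ≤ Z := one_le_pow₀ (by linarith [norm_nonneg z])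
      have h2 : (2:ℝ) ≤ Real.exp Z := by linarith [Real.add_one_le_exp Z]
      calc Real.exp ((c₁ + c₂) * Z) + Real.exp ((c₃ + c₄) * Z)
          ≤ Real.exp ((c₁ + c₂ + c₃ + c₄) * Z) + Real.exp ((c₁ + c₂ + c₃ + c₄) * Z) := by
            exact add_le_add (Real.exp_le_exp.2 (mul_le_mul_of_nonneg_right (by linarith) (by linarith)))
              (Real.exp_le_exp.2 (mul_le_mul_of_nonneg_right (by linarith) (by linarith)))
        _ = 2 * Real.exp ((c₁ + c₂ + c₃ + c₄) * Z) := (two_mul _).symm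
        _ ≤ Real.exp Z * Real.exp ((c₁ + c₂ + c₃ + c₄) * Z) := by gcongr
        _ = _ := by rw [← Real.exp_add]; ring_nf

omit [Nontrivial 𝔸] in
/-- Facts about one pencil at a real parameter. -/
theorem real_facts (P : Pot 𝔸) (h : 𝔸) (x t : ℝ) :
    star (P.S x t) * P.S' x t = star (P.S' x t) * P.S x t ∧
      star (P.S x t) * P.C' h x t - star (P.S' x t) * P.C h x t = -1 := by
  have hx : star (x : ℂ) = (x : ℂ) := Complex.conj_ofReal x
  have hs : P.IsSol (star (x : ℂ)) (P.S x) (P.S' x) := by rw [hx]; exact P.isSol_S x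
  have h1 := hs.lagrange (P.isSol_S x) t
  have h2 := hs.lagrange (P.isSol_C h x) t
  simp only [S_zero, S'_zero, C_zero, C'_zero, star_zero, star_one, zero_mul, mul_zero, sub_zero, one_mul,
    zero_sub] at h1 h2
  exact ⟨sub_eq_zero.1 h1, h2⟩

omit [Nontrivial 𝔸] in
theorem hasDeriv_ratio (P : Pot 𝔸) (h : 𝔸) (x t : ℝ) (hu : IsUnit (P.S x t)) :
    HasDerivAt (fun r => Ring.inverse (P.S x r) * P.C h x r)
      (-(Ring.inverse (P.S x t) * Ring.inverse (star (P.S x t)))) t := by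
  obtain ⟨u, hu'⟩ := hu
  have hi : HasFDerivAt Ring.inverse (-ContinuousLinearMap.mulLeftRight ℝ 𝔸 ((u⁻¹ : 𝔸ˣ) : 𝔸) ((u⁻¹ : 𝔸ˣ) : 𝔸))
      (P.S x t) := hu' ▸ hasFDerivAt_ringInverse u
  refine ((hi.comp_hasDerivAt t ((P.isSol_S x).d₁ t)).mul ((P.isSol_C h x).d₁ t)).congr_deriv ?_
  obtain ⟨-, h2⟩ := real_facts P h x t
  obtain ⟨hsym, -⟩ := real_facts P h x t
  simp only [ContinuousLinearMap.neg_apply, ContinuousLinearMap.mulLeftRight_apply, Function.comp_apply]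
  rw [← hu', Ring.inverse_unit, ← Units.coe_star, Ring.inverse_unit]
  rw [← hu'] at h2 hsym
  have key : P.C' h x t - P.S' x t * (((u⁻¹ : 𝔸ˣ) : 𝔸) * P.C h x t) = -((star u)⁻¹ : 𝔸ˣ) := by
    refine (star u).isUnit.mul_left_cancel ?_
    rw [mul_neg, Units.mul_inv, Units.coe_star, mul_sub, ← mul_assoc (star (u : 𝔸)), hsym, mul_assoc,
      ← mul_assoc (u : 𝔸), Units.mul_inv, one_mul]
    exact h2
  rw [show -(((u⁻¹ : 𝔸ˣ) : 𝔸) * ((star u)⁻¹ : 𝔸ˣ)) =
      ((u⁻¹ : 𝔸ˣ) : 𝔸) * (P.C' h x t - P.S' x t * (((u⁻¹ : 𝔸ˣ) : 𝔸) * P.C h x t)) by rw [key, mul_neg]]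
  noncomm_ring

theorem pencil_unique (hh₁ : star h₁ = h₁) (hh₂ : star h₂ = h₂) (hT₁ : 0 < T₁) (hT₂ : 0 < T₂)
    (hdata : ∀ᶠ n : ℕ in atTop, Om P₁ P₂ h₁ h₂ T₁ T₂ (n : ℂ) = 0) :
    T₁ = T₂ ∧ h₁ = h₂ ∧ ∀ t ∈ Icc 0 T₁, P₁.B t = P₂.B t ∧ P₁.D t = P₂.D t := by
  have hΩ := fun s => Om_eq_zero hT₁ hT₂ hdata s
  set T := min T₁ T₂ with hT
  have hT0 : 0 < T := lt_min hT₁ hT₂
  obtain ⟨R₁, C₁, g₁⟩ := P₁.exists_growth hT0
  obtain ⟨R₂, C₂, g₂⟩ := P₂.exists_growth hT0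
  set R := max R₁ R₂ with hR
  have hx₁ : ∀ x : ℝ, R ≤ x → ∀ t ∈ Ioc 0 T, IsUnit (P₁.S x t) := fun x hx =>
    g₁.unit_real x ((le_max_left _ _).trans hx)
  have hx₂ : ∀ x : ℝ, R ≤ x → ∀ t ∈ Ioc 0 T, IsUnit (P₂.S x t) := fun x hx =>
    g₂.unit_real x ((le_max_right _ _).trans hx)
  have hxc : ∀ x : ℝ, star (x : ℂ) = (x : ℂ) := fun x => Complex.conj_ofReal x
  have ratio : ∀ x : ℝ, R ≤ x → ∀ t ∈ Ioc 0 T,
      Ring.inverse (P₁.S x t) * P₁.C h₁ x t = Ring.inverse (P₂.S x t) * P₂.C h₂ x t := by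
    intro x hx t ht
    have k12 := kern_eq_zero hT₁ hT₂ hΩ ht (x : ℂ)
    have k22 := kern_eq_zero (P₁ := P₂) (P₂ := P₂) (h₁ := h₂) (h₂ := h₂) hT₂ hT₂
      (fun s => Om_self hh₂ s) (t := t) ⟨ht.1, le_min (ht.2.trans (min_le_right _ _)) (ht.2.trans (min_le_right _ _))⟩ (x : ℂ)
    simp only [kern, hxc, sub_eq_zero] at k12 k22
    have u1 := hx₁ x hx t ht
    have u2 := hx₂ x hx t ht
    have e : ∀ (a c : 𝔸), IsUnit a → a * star (P₂.C h₂ x t) = c * star (P₂.S x t) →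
        Ring.inverse a * c = star (P₂.C h₂ x t) * Ring.inverse (star (P₂.S x t)) := by
      intro a c ha h
      calc Ring.inverse a * c = Ring.inverse a * (c * star (P₂.S x t) * Ring.inverse (star (P₂.S x t))) := by
            rw [mul_assoc c, Ring.mul_inverse_cancel _ u2.star, mul_one]
        _ = _ := by rw [← h, ← mul_assoc, ← mul_assoc, Ring.inverse_mul_cancel _ ha, one_mul]
    rw [e _ _ u1 k12, e _ _ u2 k22]
  have gram : ∀ x : ℝ, R ≤ x → ∀ t ∈ Ioo 0 T,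
      star (P₁.S x t) * P₁.S x t = star (P₂.S x t) * P₂.S x t := by
    intro x hx t ht
    have u1 := hx₁ x hx t ⟨ht.1, ht.2.le⟩
    have u2 := hx₂ x hx t ⟨ht.1, ht.2.le⟩
    have e := ((hasDeriv_ratio P₁ h₁ x t u1).congr_of_eventuallyEq ?_).unique (hasDeriv_ratio P₂ h₂ x t u2)
    · obtain ⟨a, ha⟩ := u1
      obtain ⟨b, hb⟩ := u2
      rw [neg_inj, ← ha, ← hb, ← Units.coe_star, ← Units.coe_star, Ring.inverse_unit, Ring.inverse_unit,
        Ring.inverse_unit, Ring.inverse_unit, ← Units.val_mul, ← Units.val_mul, Units.val_inj,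
        ← mul_inv_rev, ← mul_inv_rev, inv_inj] at e
      rw [← ha, ← hb, ← Units.coe_star, ← Units.coe_star, ← Units.val_mul, ← Units.val_mul, e]
    · filter_upwards [isOpen_Ioo.mem_nhds ht] with r hr
      exact (ratio x hx r ⟨hr.1, hr.2.le⟩).symm
  have sym : ∀ x : ℝ, R ≤ x → ∀ t ∈ Ioo 0 T,
      star (P₁.S x t) * P₁.S' x t = star (P₂.S x t) * P₂.S' x t := by
    intro x hx t ht
    have d : ∀ P : Pot 𝔸, HasDerivAt (fun r => star (P.S x r) * P.S x r)
        ((2 : ℂ) • (star (P.S x t) * P.S' x t)) t := fun P => by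
      refine (((P.isSol_S x).d₁ t).star.mul ((P.isSol_S x).d₁ t)).congr_deriv ?_
      rw [(real_facts P 0 x t).1, two_smul]
    have e := ((d P₁).congr_of_eventuallyEq ?_).unique (d P₂)
    · exact smul_right_injective 𝔸 (two_ne_zero' ℂ) e
    · filter_upwards [isOpen_Ioo.mem_nhds ht] with r hr
      exact (gram x hx r hr).symm
  have same : ∀ x : ℝ, R ≤ x → ∀ t ∈ Ioo 0 T, P₁.S x t = P₂.S x t := by
    intro x hx
    set U : ℝ → 𝔸 := fun r => P₂.S x r * Ring.inverse (P₁.S x r) with hU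
    have hUd : ∀ t ∈ Ioo 0 T, HasDerivAt U 0 t := by
      intro t ht
      obtain ⟨u, hu⟩ := hx₁ x hx t ⟨ht.1, ht.2.le⟩
      have hi : HasFDerivAt Ring.inverse (-ContinuousLinearMap.mulLeftRight ℝ 𝔸 ((u⁻¹ : 𝔸ˣ) : 𝔸) ((u⁻¹ : 𝔸ˣ) : 𝔸))
          (P₁.S x t) := hu ▸ hasFDerivAt_ringInverse u
      refine (((P₂.isSol_S x).d₁ t).mul (hi.comp_hasDerivAt t ((P₁.isSol_S x).d₁ t))).congr_deriv ?_
      refine (hx₂ x hx t ⟨ht.1, ht.2.le⟩).star.mul_left_cancel ?_
      simp only [ContinuousLinearMap.neg_apply, ContinuousLinearMap.mulLeftRight_apply, Function.comp_apply, mul_zero]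
      rw [← hu, Ring.inverse_unit, mul_add, ← mul_assoc, ← sym x hx t ht, ← hu, mul_neg, mul_neg,
        ← mul_assoc (star (P₂.S x t)), ← gram x hx t ht, ← hu]
      simp [mul_assoc, Units.mul_inv_cancel_left]
    obtain ⟨c, hc⟩ := isOpen_Ioo.exists_is_const_of_deriv_eq_zero isPreconnected_Ioo
      (fun t ht => (hUd t ht).differentiableAt.differentiableWithinAt) (fun t ht => (hUd t ht).deriv)
    have hS : ∀ t ∈ Ioo 0 T, P₂.S x t = c * P₁.S x t := fun t ht => by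
      rw [← hc t ht, hU]
      simp only [mul_assoc, Ring.inverse_mul_cancel _ (hx₁ x hx t ⟨ht.1, ht.2.le⟩), mul_one]
    have hl : ∀ P : Pot 𝔸, Tendsto (fun r : ℝ => (r : ℂ)⁻¹ • P.S x r) (𝓝[>] 0) (𝓝 1) := fun P => by
      have := ((P.isSol_S (x : ℂ)).d₁ 0).tendsto_slope_zero_right
      rw [S'_zero] at this
      refine this.congr fun r => ?_
      simp [S_zero, ← Complex.ofReal_inv, Complex.coe_smul]
    have hc1 : c = 1 := by
      have h1 := (hl P₁).const_mul c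
      rw [mul_one] at h1
      refine tendsto_nhds_unique (h1.congr' ?_) (hl P₂)
      filter_upwards [Ioo_mem_nhdsGT hT0] with r hr
      rw [hS r hr, mul_smul_comm]
    intro t ht
    rw [hS t ht, hc1, one_mul]
  have hBD : ∀ t ∈ Icc 0 T, P₁.B t = P₂.B t ∧ P₁.D t = P₂.D t := by
    have hopen : ∀ t ∈ Ioo 0 T, P₁.B t = P₂.B t ∧ P₁.D t = P₂.D t := by
      intro t ht
      have hq : ∀ x : ℝ, R ≤ x → (x : ℂ) • (P₁.B t - P₂.B t) + (P₁.D t - P₂.D t) = 0 := by
        intro x hx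
        have e1 : ∀ r ∈ Ioo 0 T, P₁.S' x r = P₂.S' x r := fun r hr =>
          (((P₁.isSol_S x).d₁ r).congr_of_eventuallyEq (by
            filter_upwards [isOpen_Ioo.mem_nhds hr] with z hz; exact (same x hx z hz).symm)).unique
            ((P₂.isSol_S x).d₁ r)
        have e2 := (((P₁.isSol_S x).d₂ t).congr_of_eventuallyEq (by
            filter_upwards [isOpen_Ioo.mem_nhds ht] with z hz; exact (e1 z hz).symm)).unique
            ((P₂.isSol_S x).d₂ t)
        rw [← same x hx t ht] at e2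
        have e3 := (hx₁ x hx t ⟨ht.1, ht.2.le⟩).mul_right_cancel e2
        simp only [q] at e3
        linear_combination (norm := module) e3
      have a := hq R le_rfl
      have b := hq (R + 1) (by linarith)
      have hB : P₁.B t - P₂.B t = 0 := by
        push_cast at b
        linear_combination (norm := module) b - a
      rw [hB, smul_zero, zero_add] at a
      exact ⟨sub_eq_zero.1 hB, sub_eq_zero.1 a⟩
    intro t ht
    rw [← closure_Ioo hT0.ne] at ht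
    exact ⟨closure_minimal (fun r hr => (hopen r hr).1) (isClosed_eq P₁.contB P₂.contB) ht,
      closure_minimal (fun r hr => (hopen r hr).2) (isClosed_eq P₁.contD P₂.contD) ht⟩
  have hC : ∀ x : ℝ, R ≤ x → ∀ t ∈ Ioo 0 T, P₁.C h₁ x t = P₂.C h₂ x t := by
    intro x hx t ht
    have := ratio x hx t ⟨ht.1, ht.2.le⟩
    rw [← same x hx t ht] at this
    have u1 := hx₁ x hx t ⟨ht.1, ht.2.le⟩
    simpa [← mul_assoc, Ring.mul_inverse_cancel _ u1] using congrArg (P₁.S x t * ·) this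
  have hh : h₁ = h₂ := by
    have e1 : ∀ r ∈ Ioo 0 T, P₁.C' h₁ R r = P₂.C' h₂ R r := fun r hr =>
      (((P₁.isSol_C h₁ (R:ℝ)).d₁ r).congr_of_eventuallyEq (by
        filter_upwards [isOpen_Ioo.mem_nhds hr] with z hz; exact (hC R le_rfl z hz).symm)).unique
        ((P₂.isSol_C h₂ (R:ℝ)).d₁ r)
    have hc : ∀ (P : Pot 𝔸) (h : 𝔸), Continuous (P.C' h (R:ℂ)) := fun P h =>
      continuous_iff_continuousAt.2 fun r => ((P.isSol_C h (R:ℂ)).d₂ r).continuousAt
    have := closure_minimal e1 (isClosed_eq (hc P₁ h₁) (hc P₂ h₂))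
      (show (0:ℝ) ∈ closure (Ioo 0 T) by rw [closure_Ioo hT0.ne]; exact left_mem_Icc.2 hT0.le)
    change P₁.C' h₁ (R:ℂ) 0 = P₂.C' h₂ (R:ℂ) 0 at this
    simpa [C'_zero] using this
  have hTT : T₁ = T₂ := by
    obtain ⟨Ra, Ca, ga⟩ := (P₁.rev T₁).exists_growth hT₁
    obtain ⟨Rb, Cb, gb⟩ := (P₂.rev T₂).exists_growth hT₂
    obtain ⟨x, hxR, hxa, hxb⟩ : ∃ x : ℝ, R ≤ x ∧ Ra ≤ x ∧ Rb ≤ x :=
      ⟨max R (max Ra Rb), le_max_left _ _, (le_max_left _ _).trans (le_max_right _ _),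
        (le_max_right _ _).trans (le_max_right _ _)⟩
    have hua := (ga.unit (x : ℂ) (by simpa using hxa)).1
    have hub := (gb.unit (x : ℂ) (by simpa using hxb)).1
    have hua' : IsUnit (P₁.W T₁ (star (x : ℂ))) := by rw [hxc]; exact hua
    have m12 := resp_eq (hΩ (x : ℂ)) hua' hub
    have m11 := resp_eq (Om_self hh₁ (x : ℂ)) hua' hua
    have hm : resp P₂ h₂ T₂ x = resp P₁ h₁ T₁ x := m12.trans m11.symm
    have hcont : ∀ (P : Pot 𝔸) (h : 𝔸), Continuous (P.S (x:ℂ)) ∧ Continuous (P.C h (x:ℂ)) := fun P h =>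
      ⟨continuous_iff_continuousAt.2 fun r => ((P.isSol_S (x:ℂ)).d₁ r).continuousAt,
        continuous_iff_continuousAt.2 fun r => ((P.isSol_C h (x:ℂ)).d₁ r).continuousAt⟩
    have hT' : T ∈ closure (Ioo 0 T) := by rw [closure_Ioo hT0.ne]; exact right_mem_Icc.2 hT0.le
    have eS := closure_minimal (fun r hr => same x hxR r hr) (isClosed_eq (hcont P₁ h₁).1 (hcont P₂ h₂).1) hT'
    have eC := closure_minimal (fun r hr => hC x hxR r hr) (isClosed_eq (hcont P₁ h₁).2 (hcont P₂ h₂).2) hT'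
    change P₁.S (x:ℂ) T = P₂.S (x:ℂ) T at eS
    change P₁.C h₁ (x:ℂ) T = P₂.C h₂ (x:ℂ) T at eC
    have e : psi P₁ T₁ x T = psi P₂ T₂ x T := by
      rw [psi_eq P₁ h₁ hua, psi_eq P₂ h₂ hub, eS, eC, hm]
    rcases lt_trichotomy T₁ T₂ with h | h | h
    · rw [hT, min_eq_left h.le] at e
      exfalso
      rw [show psi P₁ T₁ x T₁ = 0 by simp [psi, S_zero]] at e
      have hu : IsUnit (psi P₂ T₂ x T₁) :=
        (gb.unit_real x hxb (T₂ - T₁) ⟨by linarith, by linarith⟩).mul hub.ringInverse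
      rw [← e] at hu
      exact not_isUnit_zero hu
    · exact h
    · rw [hT, min_eq_right h.le] at e
      exfalso
      rw [show psi P₂ T₂ x T₂ = 0 by simp [psi, S_zero]] at e
      have hu : IsUnit (psi P₁ T₁ x T₂) :=
        (ga.unit_real x hxa (T₁ - T₂) ⟨by linarith, by linarith⟩).mul hua.ringInverse
      rw [e] at hu
      exact not_isUnit_zero hu
  refine ⟨hTT, hh, ?_⟩
  rwa [show T₁ = T by rw [hT, ← hTT, min_self]]

theorem resp_asymp (P : Pot 𝔸) (h : 𝔸) {T : ℝ} (hT : 0 < T) :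
    Tendsto (fun x : ℝ => (x : ℂ)⁻¹ • resp P h T x) atTop (𝓝 1) := by
  obtain ⟨R, C, g⟩ := (P.rev T).exists_growth hT
  rw [tendsto_iff_norm_sub_tendsto_zero]
  refine squeeze_zero_norm' (a := fun x : ℝ => (‖h‖ + C) / x) ?_ (tendsto_const_nhds.div_atTop tendsto_id)
  filter_upwards [eventually_ge_atTop R] with x hx
  have hx0 : 0 < x := by linarith [g.one_le]
  rw [norm_norm, resp, smul_add, add_sub_assoc, add_div]
  refine (norm_add_le _ _).trans (add_le_add (le_of_eq ?_) (g.ratio x hx))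
  rw [norm_smul, norm_inv, Complex.norm_real, Real.norm_eq_abs, abs_of_pos hx0, div_eq_inv_mul]

end Pot

end

end Vale.Agent.P088
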